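import Mathlib

/-!
# P110: real polynomials on the circle
-/

namespace Vale.Agent.P110.Spread

open Polynomial Real MeasureTheory intervalIntegral Filter Topology
open scoped ComplexConjugate Interval

noncomputable section

/-- The value of a real polynomial at `exp (tI)`. -/
def ev (A : ℝ[X]) (t : ℝ) : ℂ := aeval (Complex.exp (t * Complex.I)) A

theorem continuous_ev (A : ℝ[X]) : Continuous (ev A) := by
  unfold ev; fun_prop

theorem ev_eq_sum (A : ℝ[X]) {M : ℕ} (hA : A.natDegree < M) (t : ℝ) :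
    ev A t = ∑ k ∈ Finset.range M, (A.coeff k : ℂ) * Complex.exp ((k * t : ℝ) * Complex.I) := by
  rw [ev, aeval_eq_sum_range' hA]
  refine Finset.sum_congr rfl fun k _ => ?_
  rw [Complex.real_smul, ← Complex.exp_nat_mul]
  push_cast
  ring_nf

theorem ev_neg (A : ℝ[X]) (t : ℝ) : ev A (-t) = conj (ev A t) := by
  rw [ev, ev, ← aeval_conj, ← Complex.exp_conj]
  simp

theorem ev_periodic (A : ℝ[X]) : Function.Periodic (ev A) (2 * π) := fun t => by
  simp only [ev]
  push_cast
  rw [add_mul, Complex.exp_add, Complex.exp_two_pi_mul_I, mul_one]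

theorem integral_cos_int (n : ℤ) :
    ∫ t in (0 : ℝ)..2 * π, cos (n * t) = if n = 0 then 2 * π else 0 := by
  split_ifs with h
  · simp [h]
  · rw [intervalIntegral.integral_comp_mul_left _ (Int.cast_ne_zero.2 h), integral_cos]
    have : sin ((n : ℝ) * (2 * π)) = 0 :=
      sin_eq_zero_iff.2 ⟨2 * n, by push_cast; ring⟩
    simp [this]

theorem parseval (A B : ℝ[X]) {M : ℕ} (hA : A.natDegree < M) (hB : B.natDegree < M) :
    ∫ t in (0 : ℝ)..2 * π, (ev A t * conj (ev B t)).re =
      2 * π * ∑ k ∈ Finset.range M, A.coeff k * B.coeff k := by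
  have h : ∀ t, (ev A t * conj (ev B t)).re = ∑ j ∈ Finset.range M, ∑ k ∈ Finset.range M,
      A.coeff j * B.coeff k * cos ((((j : ℤ) - k : ℤ) : ℝ) * t) := fun t => by
    rw [ev_eq_sum A hA, ev_eq_sum B hB, map_sum, Finset.sum_mul, Complex.re_sum]
    refine Finset.sum_congr rfl fun j _ => ?_
    rw [Finset.mul_sum, Complex.re_sum]
    refine Finset.sum_congr rfl fun k _ => ?_
    simp only [map_mul, Complex.conj_ofReal, Complex.mul_re, Complex.mul_im,
      Complex.conj_re, Complex.conj_im, Complex.ofReal_re, Complex.ofReal_im,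
      Complex.exp_ofReal_mul_I_re, Complex.exp_ofReal_mul_I_im]
    push_cast
    rw [sub_mul (j : ℝ) (k : ℝ), cos_sub]
    ring
  simp only [h]
  rw [intervalIntegral.integral_finsetSum fun j _ =>
    Continuous.intervalIntegrable (by fun_prop) _ _, Finset.mul_sum]
  refine Finset.sum_congr rfl fun j hj => ?_
  rw [intervalIntegral.integral_finsetSum fun k _ =>
    Continuous.intervalIntegrable (by fun_prop) _ _]
  rw [Finset.sum_eq_single j]
  · rw [intervalIntegral.integral_const_mul, integral_cos_int, if_pos (sub_self _)]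
    ring
  · intro k _ hk
    rw [intervalIntegral.integral_const_mul, integral_cos_int, if_neg (by omega), mul_zero]
  · exact fun h => absurd hj h

theorem parseval_sq (A : ℝ[X]) {M : ℕ} (hA : A.natDegree < M) :
    ∫ t in (0 : ℝ)..2 * π, ‖ev A t‖ ^ 2 =
      2 * π * ∑ k ∈ Finset.range M, A.coeff k ^ 2 := by
  simp only [sq (A.coeff _), ← parseval A A hA hA, Complex.mul_conj', ← Complex.ofReal_pow,
    Complex.ofReal_re]

/-- The coefficient norm is at most the supremum norm on the circle. -/
theorem sum_sq_le_of_sup (A : ℝ[X]) {M : ℕ} (hA : A.natDegree < M) {s : ℝ}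
    (hs : ∀ t, ‖ev A t‖ ≤ s) : ∑ k ∈ Finset.range M, A.coeff k ^ 2 ≤ s ^ 2 := by
  have h := intervalIntegral.integral_mono_on (a := (0 : ℝ)) (b := 2 * π) (by positivity)
    ((((continuous_ev A).norm).pow 2).intervalIntegrable (μ := volume) _ _)
    (intervalIntegrable_const (c := s ^ 2))
    (fun t _ => pow_le_pow_left₀ (norm_nonneg (ev A t)) (hs t) 2)
  simp only [Pi.pow_apply] at h
  rw [parseval_sq A hA, intervalIntegral.integral_const, smul_eq_mul, sub_zero] at h
  exact le_of_mul_le_mul_left h (by positivity)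

theorem integral_sq_full (A : ℝ[X]) :
    ∫ t in (0 : ℝ)..2 * π, ‖ev A t‖ ^ 2 = 2 * ∫ t in (0 : ℝ)..π, ‖ev A t‖ ^ 2 := by
  have hi : ∀ u v : ℝ, IntervalIntegrable (fun t => ‖ev A t‖ ^ 2) volume u v := fun u v =>
    (((continuous_ev A).norm).pow 2).intervalIntegrable _ _
  rw [← integral_add_adjacent_intervals (hi 0 π) (hi π (2 * π))]
  have : ∫ t in π..2 * π, ‖ev A t‖ ^ 2 = ∫ t in (0 : ℝ)..π, ‖ev A t‖ ^ 2 := by
    have h := intervalIntegral.integral_comp_sub_left (a := (0 : ℝ)) (b := π)
      (fun t => ‖ev A t‖ ^ 2) (2 * π)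
    rw [sub_zero, show 2 * π - π = π by ring] at h
    rw [← h]
    refine intervalIntegral.integral_congr fun t _ => ?_
    rw [sub_eq_neg_add, ev_periodic, ev_neg, Complex.norm_conj]
  rw [this, two_mul]

/-- Every arc contains, up to symmetry, an arc of the upper half circle. -/
theorem exists_half_arc {x y : ℝ} (hxy : x < y) :
    ∃ θ₀ θ₁ : ℝ, 0 ≤ θ₀ ∧ θ₀ < θ₁ ∧ θ₁ ≤ π ∧ ∀ A : ℝ[X],
      ∫ t in θ₀..θ₁, ‖ev A t‖ ^ 2 ≤ ∫ t in x..y, ‖ev A t‖ ^ 2 := by
  have hπ := pi_pos
  set k := ⌊x / π⌋
  have hk : k * π ≤ x := (le_div_iff₀ hπ).1 (Int.floor_le _)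
  have hk' : x < (k + 1) * π := (div_lt_iff₀ hπ).1 (Int.lt_floor_add_one _)
  set y' := min y ((k + 1) * π)
  have hy : x < y' := lt_min hxy hk'
  have hle : ∀ A : ℝ[X],
      ∫ t in x..y', ‖ev A t‖ ^ 2 ≤ ∫ t in x..y, ‖ev A t‖ ^ 2 := fun A =>
    intervalIntegral.integral_mono_interval le_rfl hy.le (min_le_left _ _)
      (Eventually.of_forall fun t => sq_nonneg _)
      ((((continuous_ev A).norm).pow 2).intervalIntegrable _ _)
  have hy' : y' ≤ (k + 1) * π := min_le_right _ _
  rcases Int.even_or_odd k with ⟨j, hj⟩ | ⟨j, hj⟩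
  · refine ⟨x - k * π, y' - k * π, by linarith, by linarith, by linarith, fun A => ?_⟩
    refine (le_of_eq ?_).trans (hle A)
    rw [← intervalIntegral.integral_comp_sub_right (fun t => ‖ev A t‖ ^ 2) (k * π)]
    refine intervalIntegral.integral_congr fun t _ => ?_
    rw [show (k : ℝ) * π = (j : ℤ) • (2 * π) by
      rw [hj, zsmul_eq_mul]; push_cast; ring, (ev_periodic A).sub_zsmul_eq]
  · refine ⟨(k + 1) * π - y', (k + 1) * π - x, by linarith, by linarith, by linarith, fun A => ?_⟩
    refine (le_of_eq ?_).trans (hle A)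
    rw [← intervalIntegral.integral_comp_sub_left (fun t => ‖ev A t‖ ^ 2) ((k + 1) * π)]
    refine intervalIntegral.integral_congr fun t _ => ?_
    rw [show ((k : ℝ) + 1) * π = (j + 1 : ℤ) • (2 * π) by
      rw [hj, zsmul_eq_mul]; push_cast; ring, (ev_periodic A).zsmul _ |>.sub_eq', ev_neg,
      Complex.norm_conj]

/-- The mass of a kernel concentrating at the roots of unity tends to zero. -/
theorem tendsto_integral_kernel {Q : ℕ} (hQ : 0 < Q) :
    Tendsto (fun n : ℕ => ∫ t in (0 : ℝ)..2 * π, 1 / (1 + n * ‖ev (1 - X ^ Q) t‖))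
      atTop (𝓝 0) := by
  have h0 := intervalIntegral.tendsto_integral_filter_of_dominated_convergence
    (μ := volume) (l := (atTop : Filter ℕ)) (a := 0) (b := 2 * π) (f := fun _ : ℝ => (0 : ℝ))
    (F := fun (n : ℕ) t => 1 / (1 + n * ‖ev (1 - X ^ Q) t‖)) (fun _ => (1 : ℝ))
    (Eventually.of_forall fun n => by
      refine Continuous.aestronglyMeasurable (continuous_const.div ?_ fun t => by positivity)
      exact continuous_const.add (continuous_const.mul (continuous_ev _).norm))
    (Eventually.of_forall fun n => Eventually.of_forall fun t _ => by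
      rw [norm_eq_abs, abs_of_nonneg (by positivity), div_le_one (by positivity)]
      exact le_add_of_nonneg_right (by positivity))
    intervalIntegrable_const ?_
    
  · simpa using h0
  · have hc : (Set.range fun j : ℤ => (j : ℝ) * (2 * π) / Q).Countable :=
      Set.countable_range _
    filter_upwards [hc.ae_notMem volume] with t ht _
    have hne : 0 < ‖ev (1 - X ^ Q) t‖ := by
      refine norm_pos_iff.2 fun e => ht ?_
      simp only [ev, map_sub, map_one, map_pow, aeval_X, sub_eq_zero,
        ← Complex.exp_nat_mul] at e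
      obtain ⟨j, hj⟩ := Complex.exp_eq_one_iff.1 e.symm
      refine ⟨j, ?_⟩
      have := congrArg Complex.im hj
      simp at this
      field_simp
      linarith
    simp only [one_div]
    exact Tendsto.inv_tendsto_atTop
      (tendsto_atTop_add_const_left _ _ (tendsto_natCast_atTop_atTop.atTop_mul_const hne))

end

end Vale.Agent.P110.Spread
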