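import Vale.Agent.P110.Spread.Circle

/-!
# P110: integer filters

If a high power of a fixed filter kills a bounded integer sequence on a run of quadratic length,
so does its square at the centre. A recurrence of fixed degree on signs has a fixed period.
-/

namespace Vale.Agent.P110.Spread

open Polynomial Real
open scoped ComplexConjugate

noncomputable section

theorem coeff_mul_range {S : Type*} [CommRing S] (A E : S[X]) {n u : ℕ}
    (hn : A.natDegree ≤ n) (hu : n ≤ u) :
    (A * E).coeff u = ∑ l ∈ Finset.range (n + 1), A.coeff l * E.coeff (u - l) := by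
  rw [coeff_mul, Finset.Nat.sum_antidiagonal_eq_sum_range_succ fun i j => A.coeff i * E.coeff j]
  refine (Finset.sum_subset (Finset.range_subset_range.2 (by omega)) fun l _ hl => ?_).symm
  rw [coeff_eq_zero_of_natDegree_lt, zero_mul]
  simp only [Finset.mem_range] at hl
  omega

theorem ev_reverse (A : ℝ[X]) (t : ℝ) :
    ev A.reverse t = Complex.exp (t * Complex.I) ^ A.natDegree * conj (ev A t) := by
  have hz : Complex.exp ((-t : ℝ) * Complex.I) ≠ 0 := Complex.exp_ne_zero _
  let _ := invertibleOfNonzero hz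
  have h := eval₂_reverse_mul_pow (algebraMap ℝ ℂ) (Complex.exp ((-t : ℝ) * Complex.I)) A
  rw [invOf_eq_inv, ← Complex.exp_neg, show -(((-t : ℝ) : ℂ) * Complex.I) = t * Complex.I by
    push_cast; ring, ← aeval_def, ← aeval_def] at h
  rw [← ev_neg]
  simp only [ev]
  rw [← h, mul_left_comm, ← mul_pow, ← Complex.exp_add, show
    (t : ℂ) * Complex.I + ((-t : ℝ) : ℂ) * Complex.I = 0 by push_cast; ring, Complex.exp_zero,
    one_pow, mul_one]

/-- The sum of absolute values of the coefficients. -/
def mass (B : ℤ[X]) : ℝ := ∑ i ∈ Finset.range (B.natDegree + 1), |(B.coeff i : ℝ)|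

theorem one_le_mass {B : ℤ[X]} (hB : B ≠ 0) : 1 ≤ mass B := by
  refine le_trans ?_ (Finset.single_le_sum (fun i _ => abs_nonneg _)
    (Finset.self_mem_range_succ B.natDegree))
  have : (1 : ℤ) ≤ |B.coeff B.natDegree| := Int.one_le_abs (by simpa using hB)
  exact_mod_cast this

theorem natDegree_map_cast (B : ℤ[X]) :
    (B.map (Int.castRingHom ℝ)).natDegree = B.natDegree :=
  natDegree_map_eq_of_injective Int.cast_injective _

theorem norm_ev_le_mass (B : ℤ[X]) (t : ℝ) :
    ‖ev (B.map (Int.castRingHom ℝ)) t‖ ≤ mass B := by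
  rw [ev_eq_sum _ (M := B.natDegree + 1) (by rw [natDegree_map_cast]; omega)]
  refine (norm_sum_le _ _).trans (le_of_eq (Finset.sum_congr rfl fun i _ => ?_))
  rw [norm_mul, Complex.norm_exp_ofReal_mul_I, mul_one, Complex.norm_real, coeff_map]
  rfl

/-- The lower binomial tail, weighted by its variable, is small. -/
theorem bern_tail {n m : ℕ} {s : ℝ} (h0 : 0 ≤ s) (h1 : s ≤ 1) :
    ∑ k ∈ Finset.range m, s * ((n.choose k : ℝ) * s ^ k * (1 - s) ^ (n - k)) ≤ m / (n + 1) := by
  have h1' : 0 ≤ 1 - s := by linarith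
  have key : ∀ k ∈ Finset.range m, (n.choose k : ℝ) * s ^ k * (1 - s) ^ (n - k) * s ≤
      (m / (n + 1) : ℝ) *
        ((n + 1).choose (k + 1) * s ^ (k + 1) * (1 - s) ^ (n + 1 - (k + 1))) := by
    intro k hk
    have he : ((n : ℝ) + 1) * n.choose k = (n + 1).choose (k + 1) * (k + 1) := by
      exact_mod_cast Nat.add_one_mul_choose_eq n k
    have hkm : (k : ℝ) + 1 ≤ m := by exact_mod_cast Finset.mem_range.1 hk
    rw [Nat.succ_sub_succ, div_mul_eq_mul_div, le_div_iff₀ (by positivity), pow_succ]
    calc (n.choose k : ℝ) * s ^ k * (1 - s) ^ (n - k) * s * (n + 1)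
        = ((n + 1) * n.choose k) * (s ^ k * s * (1 - s) ^ (n - k)) := by ring
      _ = (k + 1) * ((n + 1).choose (k + 1) * (s ^ k * s * (1 - s) ^ (n - k))) := by
          rw [he]; ring
      _ ≤ m * ((n + 1).choose (k + 1) * (s ^ k * s * (1 - s) ^ (n - k))) :=
          mul_le_mul_of_nonneg_right hkm (by positivity)
      _ = _ := by ring
  simp only [mul_comm s]
  refine (Finset.sum_le_sum key).trans ?_
  rw [← Finset.mul_sum]
  refine mul_le_of_le_one_right (by positivity) ?_
  have hs : ∑ j ∈ Finset.range (n + 2),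
      ((n + 1).choose j : ℝ) * s ^ j * (1 - s) ^ (n + 1 - j) = 1 := by
    have := add_pow s (1 - s) (n + 1)
    rw [add_sub_cancel, one_pow] at this
    exact (Finset.sum_congr rfl fun j _ => by ring).trans this.symm
  rw [Finset.sum_range_succ'] at hs
  rw [← Finset.sum_filter_add_sum_filter_not (Finset.range m) (· ≤ n),
    Finset.sum_eq_zero (s := (Finset.range m).filter fun k => ¬ k ≤ n) fun k hk => by
      rw [Nat.choose_eq_zero_of_lt (by have := (Finset.mem_filter.1 hk).2; omega)]; simp,
    add_zero]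
  refine le_trans (Finset.sum_le_sum_of_subset_of_nonneg (t := Finset.range (n + 1))
    (fun k hk => Finset.mem_range.2 (by have := (Finset.mem_filter.1 hk).2; omega))
    fun k _ _ => by positivity) ?_
  have : (0 : ℝ) ≤ ((n + 1).choose 0 : ℝ) * s ^ 0 * (1 - s) ^ (n + 1 - 0) := by positivity
  linarith

/-- Vanishing of a high power of a filter on a quadratically long run propagates to its square. -/
theorem smoothing {B : ℤ[X]} (hB : B ≠ 0) : ∃ K : ℕ, ∀ (m : ℕ) (E : ℤ[X]),
    (∀ k, |E.coeff k| ≤ 1) → ∀ j, K * (m + 1) ^ 2 ≤ j →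
      (∀ i, j ≤ i + K * (m + 1) ^ 2 → i ≤ j + K * (m + 1) ^ 2 → (B ^ m * E).coeff i = 0) →
        (B ^ 2 * E).coeff j = 0 := by
  set D := B.natDegree
  set β := mass B
  have hβ : 1 ≤ β := one_le_mass hB
  set L := ⌈(2 * D + 1) * β ^ 4⌉₊ + 1
  have hL : (2 * (D : ℝ) + 1) * β ^ 4 < L := by
    have := Nat.le_ceil ((2 * (D : ℝ) + 1) * β ^ 4)
    simp only [L, Nat.cast_add, Nat.cast_one]; linarith
  refine ⟨2 * L * D + 2 * D + 1, fun m E hE j hj hz => ?_⟩
  set n := L * (m + 1) ^ 2 with hn
  have hmn : (2 * (D : ℝ) + 1) * β ^ 4 * (m : ℝ) ^ 2 < n + 1 := by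
    simp only [hn, Nat.cast_mul, Nat.cast_pow, Nat.cast_add, Nat.cast_one]
    nlinarith [sq_nonneg (m : ℝ), Nat.cast_nonneg (α := ℝ) m, Nat.cast_nonneg (α := ℝ) L]
  set R := 2 * n * D + 2 * D with hR
  have hRK : R < (2 * L * D + 2 * D + 1) * (m + 1) ^ 2 := by
    have : 1 ≤ (m + 1) ^ 2 := Nat.one_le_pow _ _ (by omega)
    simp only [hR, hn]
    nlinarith
  set b := B.map (Int.castRingHom ℝ)
  set e := E.map (Int.castRingHom ℝ)
  have hbd : b.natDegree = D := natDegree_map_cast B
  set S := b * b.reverse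
  set T := C (β ^ 2) * X ^ D - S
  have hSd : S.natDegree ≤ 2 * D :=
    natDegree_mul_le.trans (by have := reverse_natDegree_le b; omega)
  have hTd : T.natDegree ≤ 2 * D := (natDegree_sub_le _ _).trans
    (max_le ((natDegree_C_mul_X_pow_le _ _).trans (by omega)) hSd)
  set c : ℝ := ((β ^ 2) ^ n)⁻¹
  have hc : 0 < c := by positivity
  let term : ℕ → ℝ[X] := fun k => C c * (C (n.choose k : ℝ) * S ^ k * T ^ (n - k)) * b ^ 2
  have hid : X ^ (D * n) * b ^ 2 = ∑ k ∈ Finset.range (n + 1), term k := by
    have h := add_pow S T n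
    rw [add_sub_cancel, mul_pow, ← C_pow, ← pow_mul X] at h
    simp only [term, ← Finset.sum_mul, ← Finset.mul_sum]
    rw [show ∑ k ∈ Finset.range (n + 1), C (n.choose k : ℝ) * S ^ k * T ^ (n - k) =
      C ((β ^ 2) ^ n) * X ^ (D * n) by
        rw [h]; exact Finset.sum_congr rfl fun k _ => by rw [← C_eq_natCast]; ring,
      ← mul_assoc (C c), ← C_mul, inv_mul_cancel₀ (by positivity), C_1, one_mul]
  set Ψ := ∑ k ∈ (Finset.range (n + 1)).filter (· < m), term k with hΨdef
  have hdeg : ∀ k, k ≤ n → ∀ r, r ≤ k → (C c * (C (n.choose k : ℝ) *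
      (b.reverse ^ k * b ^ r) * T ^ (n - k)) * b ^ 2).natDegree ≤ R := by
    intro k hk r hr
    refine natDegree_mul_le.trans (le_trans (Nat.add_le_add ((natDegree_C_mul_le _ _).trans
      (natDegree_mul_le.trans (Nat.add_le_add ((natDegree_C_mul_le _ _).trans
        (natDegree_mul_le.trans (Nat.add_le_add (natDegree_pow_le.trans
          (Nat.mul_le_mul_left k ((reverse_natDegree_le b).trans hbd.le)))
          (natDegree_pow_le.trans (Nat.mul_le_mul hr hbd.le)))))
        (natDegree_pow_le.trans (Nat.mul_le_mul_left (n - k) hTd)))))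
      (natDegree_pow_le.trans (Nat.mul_le_mul_left 2 hbd.le))) ?_)
    obtain ⟨d, hd⟩ : ∃ d, n = k + d := ⟨n - k, by omega⟩
    rw [hR, hd, Nat.add_sub_cancel_left]
    nlinarith
  have hΨd : Ψ.natDegree ≤ R := natDegree_sum_le_of_forall_le _ _ fun k hk => by
    have hk' := Nat.lt_succ_iff.1 (Finset.mem_range.1 (Finset.mem_filter.1 hk).1)
    refine le_trans (le_of_eq ?_) (hdeg k hk' k le_rfl)
    simp only [term, S, mul_pow, mul_comm (b ^ k)]
  have hΨ : ∀ t, ‖ev Ψ t‖ ≤ β ^ 2 * m / (n + 1) := by
    intro t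
    set s := ‖ev b t‖ ^ 2 / β ^ 2
    have hs1 : s ≤ 1 := (div_le_one (by positivity)).2
      (pow_le_pow_left₀ (norm_nonneg _) (norm_ev_le_mass B t) 2)
    have hs1' : 0 ≤ 1 - s := by linarith
    set z := Complex.exp (t * Complex.I)
    have hz1 : ‖z‖ = 1 := Complex.norm_exp_ofReal_mul_I t
    have hS : ev S t = z ^ D * ((β ^ 2 * s : ℝ) : ℂ) := by
      rw [show ev S t = ev b t * ev b.reverse t from map_mul _ _ _, ev_reverse, hbd,
        mul_left_comm, Complex.mul_conj', mul_div_cancel₀ _ (by positivity)]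
      push_cast; rfl
    have hT : ev T t = z ^ D * ((β ^ 2 * (1 - s) : ℝ) : ℂ) := by
      rw [show ev T t = ev (C (β ^ 2) * X ^ D) t - ev S t from map_sub _ _ _, hS]
      simp only [ev, map_mul, aeval_C, map_pow, aeval_X, Complex.coe_algebraMap]
      push_cast; ring
    have hterm : ∀ k ≤ n,
        ‖ev (term k) t‖ = β ^ 2 * (s * ((n.choose k : ℝ) * s ^ k * (1 - s) ^ (n - k))) := by
      intro k hk
      rw [show ev (term k) t =
          (c : ℂ) * ((n.choose k : ℝ) * ev S t ^ k * ev T t ^ (n - k)) * ev b t ^ 2 by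
        simp only [term, ev, map_mul, map_pow, aeval_C, Complex.coe_algebraMap]]
      simp only [hS, hT, norm_mul, norm_pow, hz1, one_pow, one_mul, Complex.norm_real,
        Real.norm_eq_abs, Nat.abs_cast, abs_of_pos hc, abs_of_nonneg hs1',
        abs_of_nonneg (show 0 ≤ s by positivity), abs_of_pos (show 0 < β by linarith)]
      rw [mul_pow, mul_pow, show ‖ev b t‖ ^ 2 = β ^ 2 * s from
        (mul_div_cancel₀ _ (by positivity)).symm]
      have : c * ((β ^ 2) ^ k * (β ^ 2) ^ (n - k)) = 1 := by
        rw [← pow_add, show k + (n - k) = n by omega, inv_mul_cancel₀ (by positivity)]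
      linear_combination
        (β ^ 2 * (s * ((n.choose k : ℝ) * s ^ k * (1 - s) ^ (n - k)))) * this
    rw [show ev Ψ t = ∑ k ∈ (Finset.range (n + 1)).filter (· < m), ev (term k) t from map_sum _ _ _]
    refine (norm_sum_le _ _).trans ?_
    rw [Finset.sum_congr rfl fun k hk => hterm k
      (Nat.lt_succ_iff.1 (Finset.mem_range.1 (Finset.mem_filter.1 hk).1)), ← Finset.mul_sum,
      mul_div_assoc]
    refine mul_le_mul_of_nonneg_left ((Finset.sum_le_sum_of_subset_of_nonneg
      (fun k hk => Finset.mem_range.2 (Finset.mem_filter.1 hk).2) fun k _ _ => ?_).trans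
        (bern_tail (by positivity) hs1)) (by positivity)
    positivity
  let G := ∑ k ∈ (Finset.range (n + 1)).filter (¬ · < m),
    C c * (C (n.choose k : ℝ) * (b.reverse ^ k * b ^ (k - m)) * T ^ (n - k)) * b ^ 2
  have hGd : G.natDegree ≤ R := natDegree_sum_le_of_forall_le _ _ fun k hk =>
    hdeg k (Nat.lt_succ_iff.1 (Finset.mem_range.1 (Finset.mem_filter.1 hk).1)) _ (Nat.sub_le _ _)
  have hsplit : X ^ (D * n) * (b ^ 2 * e) = Ψ * e + G * (b ^ m * e) := by
    rw [← mul_assoc, hid, ← Finset.sum_filter_add_sum_filter_not (Finset.range (n + 1)) (· < m),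
      add_mul, Finset.sum_mul (s := (Finset.range (n + 1)).filter (¬ · < m)),
      Finset.sum_mul (s := (Finset.range (n + 1)).filter (¬ · < m))]
    rw [← hΨdef]
    refine congrArg (Ψ * e + ·) (Finset.sum_congr rfl fun k hk => ?_)
    have hk' : m ≤ k := not_lt.1 (Finset.mem_filter.1 hk).2
    obtain ⟨r, rfl⟩ := Nat.exists_eq_add_of_le hk'
    simp only [term, S, Nat.add_sub_cancel_left, mul_pow, pow_add]
    ring
  have hDn : R = D * n + (D * n + 2 * D) := by rw [hR]; ring
  have hcoef := congrArg (coeff · (j + D * n)) hsplit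
  simp only [coeff_X_pow_mul, coeff_add] at hcoef
  rw [coeff_mul_range Ψ e hΨd (by omega), coeff_mul_range G (b ^ m * e) hGd (by omega),
    Finset.sum_eq_zero (s := Finset.range (R + 1)) (f := fun l =>
      G.coeff l * (b ^ m * e).coeff (j + D * n - l)) fun l hl => by
      have := Finset.mem_range.1 hl
      simp [b, e, ← Polynomial.map_pow, ← Polynomial.map_mul, coeff_map,
        hz (j + D * n - l) (by omega) (by omega)],
    add_zero] at hcoef
  have he : ∀ i, |e.coeff i| ≤ 1 := fun i => by
    simp only [e, coeff_map, eq_intCast]; exact_mod_cast hE i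
  have hsum : (∑ l ∈ Finset.range (R + 1), |Ψ.coeff l|) ^ 2 < 1 := by
    refine (sq_sum_le_card_mul_sum_sq (f := fun l => |Ψ.coeff l|)).trans_lt ?_
    simp only [sq_abs, Finset.card_range]
    refine (mul_le_mul_of_nonneg_left (sum_sq_le_of_sup Ψ (by omega) hΨ)
      (by positivity)).trans_lt ?_
    rw [div_pow, mul_div_assoc', div_lt_one (by positivity), hR]
    push_cast
    nlinarith [mul_le_mul_of_nonneg_right
      (show 2 * (n : ℝ) * D + 2 * D + 1 ≤ (2 * D + 1) * (n + 1) by
        linarith [Nat.cast_nonneg (α := ℝ) n]) (sq_nonneg (β ^ 2 * m)),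
      mul_lt_mul_of_pos_right hmn (show (0 : ℝ) < n + 1 by positivity)]
  have habs : |(b ^ 2 * e).coeff j| < 1 := by
    rw [hcoef]
    refine ((Finset.abs_sum_le_sum_abs _ _).trans (Finset.sum_le_sum fun l _ => ?_)).trans_lt
      (show ∑ l ∈ Finset.range (R + 1), |Ψ.coeff l| < 1 by
        nlinarith [Finset.sum_nonneg (s := Finset.range (R + 1))
          fun l _ => abs_nonneg (Ψ.coeff l)])
    rw [abs_mul]
    exact mul_le_of_le_one_right (abs_nonneg _) (he _)
  simp only [b, e, ← Polynomial.map_pow, ← Polynomial.map_mul, coeff_map, eq_intCast] at habs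
  exact Int.abs_lt_one_iff.1 (by exact_mod_cast habs)

/-- A recurrence satisfied by signs on a long run forces a fixed period. -/
theorem periodic_of_recurrence {A E : ℤ[X]} (hA : A.coeff 0 ≠ 0) {j : ℕ}
    (hj : 2 ^ A.natDegree + A.natDegree ≤ j)
    (hE : ∀ u, u ≤ j → j ≤ u + (2 ^ A.natDegree + A.natDegree) →
      E.coeff u = 1 ∨ E.coeff u = -1)
    (hz : ∀ u, j ≤ u + 2 ^ A.natDegree → u ≤ j + 2 * (2 ^ A.natDegree).factorial →
      (A * E).coeff u = 0) :
    E.coeff (j + (2 ^ A.natDegree).factorial) = E.coeff j := by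
  set D := A.natDegree
  set Q := (2 ^ D).factorial
  set s := j - 2 ^ D - D
  let state : Fin (2 ^ D + 1) → (Fin D → Bool) := fun i l => decide (E.coeff (s + i + l) = 1)
  obtain ⟨i₁, i₂, hne, heq⟩ := Fintype.exists_ne_map_eq_of_card_lt state (by simp)
  obtain ⟨i, i', hlt, heq⟩ : ∃ i i' : Fin (2 ^ D + 1), i < i' ∧ state i = state i' := by
    rcases hne.lt_or_gt with h | h
    · exact ⟨_, _, h, heq⟩
    · exact ⟨_, _, h, heq.symm⟩
  have hi' := i'.2
  have hlt' : (i : ℕ) < i' := hlt
  set p := (i' : ℕ) - i with hp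
  have key : ∀ u, s + i ≤ u → u + p ≤ j + 2 * Q → E.coeff (u + p) = E.coeff u := by
    intro u
    induction u using Nat.strong_induction_on with
    | _ u ih =>
      intro h1 h2
      by_cases h : u < s + i + D
      · have := congrFun heq ⟨u - (s + i), by omega⟩
        simp only [state] at this
        rw [show s + i + (u - (s + i)) = u by omega,
          show s + i' + (u - (s + i)) = u + p by omega] at this
        rcases hE u (by omega) (by omega) with a | a <;>
          rcases hE (u + p) (by omega) (by omega) with a' | a' <;>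
          simp [a, a'] at this ⊢
      · have e1 := hz u (by omega) (by omega)
        have e2 := hz (u + p) (by omega) h2
        rw [coeff_mul_range A E (le_refl D) (by omega), Finset.sum_range_succ'] at e1 e2
        rw [Finset.sum_congr rfl fun l hl => by
          have := Finset.mem_range.1 hl
          rw [show u + p - (l + 1) = u - (l + 1) + p by omega,
            ih (u - (l + 1)) (by omega) (by omega) (by omega)]] at e2
        simp only [Nat.sub_zero] at e1 e2
        exact mul_left_cancel₀ hA (by linarith)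
  obtain ⟨r, hr⟩ := Nat.dvd_factorial (show 0 < p by omega) (show p ≤ 2 ^ D by omega)
  have step : ∀ r', r' * p ≤ Q → E.coeff (j + r' * p) = E.coeff j := by
    intro r'
    induction r' with
    | zero => simp
    | succ r' ih =>
      intro h
      rw [Nat.succ_mul] at h
      rw [Nat.succ_mul, ← add_assoc, key _ (by omega) (by omega), ih (by omega)]
  have hQ : r * p = Q := by rw [mul_comm]; exact hr.symm
  rw [← hQ]
  exact step r hQ.le

end

end Vale.Agent.P110.Spread
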