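import Vale.Agent.P110.Spread.Gap
import Vale.Agent.P110.Spread.Integer

/-!
# P110: no spectral gap for bounded Littlewood polynomials

On every arc a smooth piece of positive length of a Littlewood polynomial bounded by a multiple
of the root of its length carries a positive proportion of the energy.
-/

namespace Vale.Agent.P110.Spread

open Polynomial Real MeasureTheory Filter Topology
open scoped ComplexConjugate

noncomputable section

/-- The polynomial with coefficients `w k * ε k`, for `k < N`. -/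
def twist (N : ℕ) (w : ℕ → ℝ) (ε : ℕ → ℤ) : ℝ[X] :=
  ∑ k ∈ Finset.range N, C (w k * ε k) * X ^ k

theorem twist_coeff (N : ℕ) (w : ℕ → ℝ) (ε : ℕ → ℤ) (i : ℕ) :
    (twist N w ε).coeff i = if i < N then w i * ε i else 0 := by
  simp only [twist, finsetSum_coeff, coeff_C_mul, coeff_X_pow, mul_ite, mul_one, mul_zero,
    Finset.sum_ite_eq, Finset.mem_range]

theorem twist_natDegree (N : ℕ) (w : ℕ → ℝ) (ε : ℕ → ℤ) : (twist N w ε).natDegree ≤ N :=
  natDegree_sum_le_of_forall_le _ _ fun _ hk =>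
    (natDegree_C_mul_X_pow_le _ _).trans (Finset.mem_range.1 hk).le

theorem ev_twist (N : ℕ) (w : ℕ → ℝ) (ε : ℕ → ℤ) (t : ℝ) : ev (twist N w ε) t =
    ∑ k ∈ Finset.range N, ((w k * ε k : ℝ) : ℂ) * Complex.exp ((k * t : ℝ) * Complex.I) := by
  simp only [ev, twist, map_sum, map_mul, map_pow, aeval_C, aeval_X, Complex.coe_algebraMap,
    ← Complex.exp_nat_mul]
  refine Finset.sum_congr rfl fun k _ => ?_
  push_cast
  ring_nf

/-- The filter, with nonzero constant term. -/
theorem exists_filter {θ₀ θ₁ : ℝ} (h0 : 0 ≤ θ₀) (h : θ₀ < θ₁) (h1 : θ₁ ≤ π) :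
    ∃ B : ℤ[X], B.coeff 0 ≠ 0 ∧ ∀ t ∈ Set.Icc 0 π \ Set.Ioo θ₀ θ₁,
      ‖ev (B.map (Int.castRingHom ℝ)) t‖ ≤ 1 / 2 := by
  obtain ⟨B, hB, hb⟩ := exists_gap_filter h0 h h1
  obtain ⟨B', he, hd⟩ := exists_eq_pow_rootMultiplicity_mul_and_not_dvd B hB 0
  simp only [map_zero, sub_zero] at he hd
  refine ⟨B', fun h => hd (X_dvd_iff.2 h), fun t ht => ?_⟩
  have := hb t ht
  rw [he, map_mul, map_pow, aeval_X, norm_mul, norm_pow, Complex.norm_exp_ofReal_mul_I,
    one_pow, one_mul] at this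
  rwa [ev, ← algebraMap_int_eq, aeval_map_algebraMap]

/-- Energy of a filtered polynomial: small outside the arc, bounded on it. -/
theorem filtered_energy {θ₀ θ₁ β : ℝ} (h0 : 0 ≤ θ₀) (h : θ₀ ≤ θ₁) (h1 : θ₁ ≤ π) (m : ℕ)
    (b W : ℝ[X]) (hout : ∀ t ∈ Set.Icc 0 π \ Set.Ioo θ₀ θ₁, ‖ev b t‖ ≤ 1 / 2)
    (hin : ∀ t, ‖ev b t‖ ≤ β) :
    ∫ t in (0 : ℝ)..2 * π, ‖ev (b ^ m * W) t‖ ^ 2 ≤
      (1 / 4) ^ m * (∫ t in (0 : ℝ)..2 * π, ‖ev W t‖ ^ 2) +
        2 * (β ^ 2) ^ m * ∫ t in θ₀..θ₁, ‖ev W t‖ ^ 2 := by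
  have hi : ∀ (A : ℝ[X]) (u v : ℝ), IntervalIntegrable (fun t => ‖ev A t‖ ^ 2) volume u v :=
    fun A u v => (((continuous_ev A).norm).pow 2).intervalIntegrable _ _
  have hm : ∀ (u v s : ℝ), u ≤ v → (∀ t ∈ Set.Icc u v, ‖ev b t‖ ≤ s) →
      ∫ t in u..v, ‖ev (b ^ m * W) t‖ ^ 2 ≤ (s ^ 2) ^ m * ∫ t in u..v, ‖ev W t‖ ^ 2 := by
    intro u v s huv hs
    rw [← intervalIntegral.integral_const_mul]
    refine intervalIntegral.integral_mono_on huv (hi _ _ _) ((hi _ _ _).const_mul _)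
      fun t ht => ?_
    simp only [ev, map_mul, map_pow, norm_mul, norm_pow, mul_pow]
    rw [← pow_mul, mul_comm m 2, pow_mul]
    exact mul_le_mul_of_nonneg_right (pow_le_pow_left₀ (sq_nonneg _)
      (pow_le_pow_left₀ (norm_nonneg _) (hs t ht) 2) m) (sq_nonneg _)
  rw [integral_sq_full, integral_sq_full, mul_left_comm, mul_assoc, ← mul_add]
  refine mul_le_mul_of_nonneg_left ?_ zero_le_two
  have e : ∀ A : ℝ[X], ∫ t in (0 : ℝ)..π, ‖ev A t‖ ^ 2 = (∫ t in (0 : ℝ)..θ₀, ‖ev A t‖ ^ 2) +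
      (∫ t in θ₀..θ₁, ‖ev A t‖ ^ 2) + ∫ t in θ₁..π, ‖ev A t‖ ^ 2 := fun A => by
    rw [intervalIntegral.integral_add_adjacent_intervals (hi A _ _) (hi A _ _),
      intervalIntegral.integral_add_adjacent_intervals (hi A _ _) (hi A _ _)]
  have a1 := hm 0 θ₀ (1 / 2) h0 fun t ht =>
    hout t ⟨⟨ht.1, by linarith [ht.2]⟩, fun h' => by linarith [ht.2, h'.1]⟩
  have a2 := hm θ₀ θ₁ β h fun t _ => hin t
  have a3 := hm θ₁ π (1 / 2) h1 fun t ht =>
    hout t ⟨⟨by linarith [ht.1], ht.2⟩, fun h' => by linarith [ht.1, h'.2]⟩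
  rw [show ((1 : ℝ) / 2) ^ 2 = 1 / 4 by norm_num] at a1 a3
  have hn : 0 ≤ (1 / 4 : ℝ) ^ m * ∫ t in θ₀..θ₁, ‖ev W t‖ ^ 2 := mul_nonneg (by positivity)
    (intervalIntegral.integral_nonneg h fun t _ => sq_nonneg _)
  rw [e, e]
  linarith

/-- A count of the indices at which an integer filter does not kill the signs. -/
theorem card_nonkilled_le {N M p q : ℕ} (hq : q ≤ N) (ε : ℕ → ℤ)
    (hε : ∀ k < N, ε k = 1 ∨ ε k = -1) (w : ℕ → ℝ) (A : ℤ[X]) (hA : A.natDegree ≤ M)
    (hw : ∀ j, p ≤ j → j < q → 1 / 2 ≤ w j) {Λ : ℝ}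
    (hΛ : ∑ k ∈ Finset.range N, (w (k + 1) - w k) ^ 2 ≤ Λ) :
    (((Finset.Ico (p + M) q).filter fun j =>
      (A * ∑ k ∈ Finset.range N, C (ε k) * X ^ k).coeff j ≠ 0).card : ℝ) ≤
      16 * ((∑ j ∈ Finset.range (M + N + 1),
          (A.map (Int.castRingHom ℝ) * twist N w ε).coeff j ^ 2) +
        (∑ l ∈ Finset.range (M + 1), (A.coeff l : ℝ) ^ 2) * ((M + 1) * M * M * Λ)) := by
  set E := ∑ k ∈ Finset.range N, C (ε k) * X ^ k
  set a := A.map (Int.castRingHom ℝ)
  set u := a * twist N w ε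
  set V := (Finset.Ico (p + M) q).filter fun j => (A * E).coeff j ≠ 0
  have hEc : ∀ i < N, E.coeff i = ε i := fun i hi => by
    simp [E, finsetSum_coeff, coeff_X_pow, hi]
  have had : a.natDegree ≤ M := natDegree_map_le.trans hA
  have diff : ∀ j, M ≤ j → j < N → (u.coeff j - w j * (A * E).coeff j) ^ 2 ≤
      (∑ l ∈ Finset.range (M + 1), (A.coeff l : ℝ) ^ 2) *
        ((M + 1) * M * ∑ r ∈ Finset.range M, (w (j - r) - w (j - (r + 1))) ^ 2) := by
    intro j hM hj
    rw [coeff_mul_range a _ had hM, coeff_mul_range A E hA hM, Int.cast_sum, Finset.mul_sum,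
      ← Finset.sum_sub_distrib]
    have : ∀ l ∈ Finset.range (M + 1), a.coeff l * (twist N w ε).coeff (j - l) -
        w j * ((A.coeff l * E.coeff (j - l) : ℤ) : ℝ) =
        (A.coeff l : ℝ) * ((w (j - l) - w j) * ε (j - l)) := fun l _ => by
      rw [twist_coeff, if_pos (by omega), hEc _ (by omega)]
      simp only [a, coeff_map, eq_intCast]
      push_cast; ring
    rw [Finset.sum_congr rfl this]
    refine (Finset.sum_mul_sq_le_sq_mul_sq _ _ _).trans
      (mul_le_mul_of_nonneg_left ?_ (Finset.sum_nonneg fun _ _ => sq_nonneg _))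
    refine (Finset.sum_le_card_nsmul _ _
      (M * ∑ r ∈ Finset.range M, (w (j - r) - w (j - (r + 1))) ^ 2) fun l hl => ?_).trans ?_
    · have hl' := Nat.lt_succ_iff.1 (Finset.mem_range.1 hl)
      have h1 : (ε (j - l) : ℝ) ^ 2 = 1 := by
        rcases hε (j - l) (by omega) with h | h <;> simp [h]
      rw [mul_pow, h1, mul_one, show w (j - l) - w j =
        -∑ r ∈ Finset.range l, (w (j - r) - w (j - (r + 1))) by
          rw [Finset.sum_range_sub' (fun r => w (j - r)), Nat.sub_zero]; ring, neg_sq]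
      refine (sq_sum_le_card_mul_sum_sq).trans (mul_le_mul (by simpa using hl')
        (Finset.sum_le_sum_of_subset_of_nonneg (Finset.range_subset_range.2 hl')
          fun _ _ _ => sq_nonneg _) (Finset.sum_nonneg fun _ _ => sq_nonneg _) (by positivity))
    · simp [mul_assoc]
  have htot : ∑ j ∈ V, ∑ r ∈ Finset.range M, (w (j - r) - w (j - (r + 1))) ^ 2 ≤ M * Λ := by
    rw [Finset.sum_comm]
    refine (Finset.sum_le_card_nsmul _ _ Λ fun r hr => le_trans ?_ hΛ).trans (by simp)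
    have hr' := Finset.mem_range.1 hr
    have hV : ∀ j ∈ V, M ≤ j ∧ j < N := fun j hj => by
      simp only [V, Finset.mem_filter, Finset.mem_Ico] at hj; omega
    rw [show ∑ j ∈ V, (w (j - r) - w (j - (r + 1))) ^ 2 =
        ∑ k ∈ V.image (fun j => j - (r + 1)), (w (k + 1) - w k) ^ 2 by
      rw [Finset.sum_image fun x hx y hy e => by have := hV x hx; have := hV y hy; omega]
      exact Finset.sum_congr rfl fun j hj => by
        have := hV j hj
        rw [show j - (r + 1) + 1 = j - r by omega]]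
    refine Finset.sum_le_sum_of_subset_of_nonneg (fun k hk => ?_) fun _ _ _ => sq_nonneg _
    obtain ⟨j, hj, rfl⟩ := Finset.mem_image.1 hk
    have := hV j hj
    exact Finset.mem_range.2 (by omega)
  have hone : ∀ j ∈ V, (1 : ℝ) ≤
      8 * u.coeff j ^ 2 + 8 * (u.coeff j - w j * (A * E).coeff j) ^ 2 := by
    intro j hj
    simp only [V, Finset.mem_filter, Finset.mem_Ico] at hj
    have h1 : (1 : ℝ) ≤ ((A * E).coeff j : ℝ) ^ 2 := by
      exact_mod_cast show (1 : ℤ) ≤ (A * E).coeff j ^ 2 from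
        Int.add_one_le_iff.2 (lt_of_le_of_ne (sq_nonneg _) (Ne.symm (pow_ne_zero 2 hj.2)))
    have h2 : 1 / 4 ≤ w j ^ 2 := by nlinarith [hw j (by omega) hj.1.2]
    nlinarith [mul_le_mul h2 h1 zero_le_one (sq_nonneg _),
      sq_nonneg (2 * u.coeff j - w j * (A * E).coeff j)]
  calc (V.card : ℝ) = ∑ j ∈ V, (1 : ℝ) := by simp
    _ ≤ ∑ j ∈ V, (8 * u.coeff j ^ 2 + 8 * (u.coeff j - w j * (A * E).coeff j) ^ 2) :=
        Finset.sum_le_sum hone
    _ = 8 * ∑ j ∈ V, u.coeff j ^ 2 + 8 * ∑ j ∈ V, (u.coeff j - w j * (A * E).coeff j) ^ 2 := by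
        rw [Finset.sum_add_distrib, ← Finset.mul_sum, ← Finset.mul_sum]
    _ ≤ _ := by
        have s1 : ∑ j ∈ V, u.coeff j ^ 2 ≤ ∑ j ∈ Finset.range (M + N + 1), u.coeff j ^ 2 :=
          Finset.sum_le_sum_of_subset_of_nonneg (fun j hj => by
            simp only [V, Finset.mem_filter, Finset.mem_Ico] at hj
            exact Finset.mem_range.2 (by omega)) fun _ _ _ => sq_nonneg _
        have s2 := Finset.sum_le_sum fun j (hj : j ∈ V) => diff j
          (by simp only [V, Finset.mem_filter, Finset.mem_Ico] at hj; omega)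
          (by simp only [V, Finset.mem_filter, Finset.mem_Ico] at hj; omega)
        rw [← Finset.mul_sum, ← Finset.mul_sum] at s2
        have hA0 : 0 ≤ ∑ l ∈ Finset.range (M + 1), (A.coeff l : ℝ) ^ 2 :=
          Finset.sum_nonneg fun _ _ => sq_nonneg _
        have s3 := mul_le_mul_of_nonneg_left
          (mul_le_mul_of_nonneg_left htot (show (0 : ℝ) ≤ ((M : ℝ) + 1) * M by positivity)) hA0
        have s4 : 0 ≤ ∑ j ∈ Finset.range (M + N + 1), u.coeff j ^ 2 :=
          Finset.sum_nonneg fun _ _ => sq_nonneg _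
        have s5 : 0 ≤ ∑ j ∈ V, (u.coeff j - w j * (A * E).coeff j) ^ 2 :=
          Finset.sum_nonneg fun _ _ => sq_nonneg _
        linarith

/-- The signs on a window cannot be nearly periodic. -/
theorem not_periodic {C : ℝ} {N Q n s t' : ℕ} (hN : 0 < N) (ht : t' ≤ N) (hst : s ≤ t')
    (ε : ℕ → ℤ) (hε : ∀ k < N, ε k = 1 ∨ ε k = -1)
    (hsup : ∀ x, ‖ev (twist N (fun _ => 1) ε) x‖ ≤ C * √N) {μ : ℝ} (hμ : 0 < μ) :
    2 * π * (t' - s : ℕ) ≤ C * (N * (∫ x in (0 : ℝ)..2 * π,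
        1 / (1 + n * ‖ev (1 - X ^ Q) x‖)) / (2 * μ) + 2 * π * μ * N +
      n ^ 2 * π * (4 * (((Finset.Ico s t').filter fun j =>
        j + Q < t' ∧ ε (j + Q) ≠ ε j).card + 2 * Q)) / μ) := by
  have hsN : 0 < √(N : ℝ) := by positivity
  have hC : 0 ≤ C := nonneg_of_mul_nonneg_left ((norm_nonneg _).trans (hsup 0)) hsN
  set one := twist N (fun _ => 1) ε
  set ind : ℕ → ℝ := fun k => if k ∈ Finset.Ico s t' then 1 else 0
  set EW := twist N ind ε
  set bad := (Finset.Ico s t').filter fun j => j + Q < t' ∧ ε (j + Q) ≠ ε j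
  set Df := (1 - X ^ Q) * EW
  have hEW : ∀ k, EW.coeff k = if k ∈ Finset.Ico s t' then (ε k : ℝ) else 0 := fun k => by
    simp only [EW, twist_coeff, ind]
    by_cases h : k ∈ Finset.Ico s t'
    · have : k < N := by simp only [Finset.mem_Ico] at h; omega
      simp [h, this]
    · simp [h]
  have hsq : ∀ k < N, (ε k : ℝ) ^ 2 = 1 := fun k hk => by
    rcases hε k hk with h | h <;> simp [h]
  have hEWd : EW.natDegree ≤ N := twist_natDegree _ _ _
  have hinner : ∑ k ∈ Finset.range (N + 1), one.coeff k * EW.coeff k = (t' - s : ℕ) := by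
    rw [← Finset.sum_subset (s₁ := Finset.Ico s t')
      (fun k hk => Finset.mem_range.2 (by simp only [Finset.mem_Ico] at hk; omega))
      fun k _ hk => by rw [hEW, if_neg hk, mul_zero]]
    rw [Finset.sum_congr rfl fun k hk => show one.coeff k * EW.coeff k = 1 by
      have hk' : k < N := by simp only [Finset.mem_Ico] at hk; omega
      rw [hEW, if_pos hk, twist_coeff, if_pos hk', one_mul, ← sq, hsq k hk']]
    simp
  have henergy : ∑ k ∈ Finset.range (N + 1), EW.coeff k ^ 2 ≤ N := by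
    rw [← Finset.sum_subset (s₁ := Finset.Ico s t')
      (fun k hk => Finset.mem_range.2 (by simp only [Finset.mem_Ico] at hk; omega))
      fun k _ hk => by rw [hEW, if_neg hk]; simp]
    rw [Finset.sum_congr rfl fun k hk => show EW.coeff k ^ 2 = 1 by
      rw [hEW, if_pos hk, hsq k (by simp only [Finset.mem_Ico] at hk; omega)]]
    simp only [Finset.sum_const, Nat.card_Ico, nsmul_one]
    exact_mod_cast (Nat.sub_le t' s).trans ht
  have hDd : Df.natDegree ≤ Q + N := natDegree_mul_le.trans (Nat.add_le_add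
    ((natDegree_sub_le _ _).trans (by simp)) hEWd)
  have hDf : ∑ k ∈ Finset.range (Q + N + 1), Df.coeff k ^ 2 ≤ 4 * (bad.card + 2 * Q) := by
    set X' := Finset.Ico s (s + Q) ∪ Finset.Ico t' (t' + Q) ∪ bad.image (· + Q)
    have hc : ∀ k, Df.coeff k = EW.coeff k - if Q ≤ k then EW.coeff (k - Q) else 0 := fun k => by
      simp [Df, sub_mul, coeff_X_pow_mul']
    have hz : ∀ k, k ∉ X' → Df.coeff k = 0 := fun k hk => by
      simp only [X', Finset.mem_union, Finset.mem_Ico, Finset.mem_image, not_or] at hk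
      rw [hc]
      simp only [hEW, Finset.mem_Ico]
      by_cases h1 : Q ≤ k ∧ s + Q ≤ k ∧ k < t'
      · rw [if_pos (by omega), if_pos h1.1, if_pos (by omega), sub_eq_zero]
        have := hk.2
        by_contra h
        exact this ⟨k - Q, Finset.mem_filter.2 ⟨Finset.mem_Ico.2 (by omega), by omega,
          by rw [show k - Q + Q = k by omega]; exact_mod_cast h⟩, by omega⟩
      · split_ifs <;> first | (exfalso; omega) | simp
    have hb : ∀ k, Df.coeff k ^ 2 ≤ 4 := fun k => by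
      have : ∀ i, |EW.coeff i| ≤ 1 := fun i => by
        rw [hEW]; split_ifs with h
        · rcases hε i (by simp only [Finset.mem_Ico] at h; omega) with e | e <;> simp [e]
        · simp
      rw [hc]
      have := abs_le.1 (this k)
      split_ifs
      · have := abs_le.1 (‹∀ i, |EW.coeff i| ≤ 1› (k - Q)); nlinarith
      · nlinarith
    rw [← Finset.sum_subset (Finset.inter_subset_left (s₂ := X')) fun k hk hk' => by
      rw [hz k fun h => hk' (Finset.mem_inter.2 ⟨hk, h⟩)]; simp]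
    refine (Finset.sum_le_card_nsmul _ _ 4 fun k _ => hb k).trans ?_
    rw [nsmul_eq_mul, mul_comm]
    refine mul_le_mul_of_nonneg_left ?_ (by norm_num)
    have : (Finset.range (Q + N + 1) ∩ X').card ≤ bad.card + 2 * Q := by
      refine (Finset.card_le_card Finset.inter_subset_right).trans ?_
      refine (Finset.card_union_le _ _).trans (le_trans
        (Nat.add_le_add (Finset.card_union_le _ _) Finset.card_image_le) ?_)
      simp; omega
    exact_mod_cast this
  set φ : ℝ → ℝ := fun x => 1 / (1 + n * ‖ev (1 - X ^ Q) x‖)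
  have hφc : Continuous φ := continuous_const.div
    (continuous_const.add (continuous_const.mul (continuous_ev _).norm)) fun x => by positivity
  have hpt : ∀ x, (ev one x * conj (ev EW x)).re ≤ C * (√N * √N / (2 * μ) * φ x +
      μ / 2 * ‖ev EW x‖ ^ 2 + √N * √N * μ / 2 + n ^ 2 / (2 * μ) * ‖ev Df x‖ ^ 2) := by
    intro x
    refine (Complex.re_le_norm _).trans ?_
    rw [norm_mul, Complex.norm_conj]
    refine (mul_le_mul_of_nonneg_right (hsup x) (norm_nonneg _)).trans ?_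
    rw [mul_assoc]
    refine mul_le_mul_of_nonneg_left ?_ hC
    set d := ‖ev (1 - X ^ Q) x‖
    set e := ‖ev EW x‖
    have hD : ‖ev Df x‖ = d * e := by simp [Df, d, e, ev]
    have hd : 0 ≤ d := norm_nonneg _
    have he : 0 ≤ e := norm_nonneg _
    have hφ0 : 0 ≤ φ x := by positivity
    have hφ1 : φ x ≤ 1 := (div_le_one (by positivity)).2 (le_add_of_nonneg_right (by positivity))
    have hφ2 : e ≤ φ x * e + n * d * e := by
      have : 1 ≤ φ x + n * d := by
        have h' : φ x * (1 + n * d) = 1 := one_div_mul_cancel (by positivity)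
        nlinarith [mul_nonneg (Nat.cast_nonneg (α := ℝ) n) hd]
      nlinarith
    rw [hD]
    have a1 : √N * (φ x * e) ≤ √N * √N / (2 * μ) * φ x + μ / 2 * e ^ 2 := by
      have q := mul_nonneg hφ0 (div_nonneg (sq_nonneg (√N - μ * e)) (show 0 ≤ 2 * μ by positivity))
      have q2 := mul_le_of_le_one_left (show 0 ≤ μ / 2 * e ^ 2 by positivity) hφ1
      have : φ x * ((√N - μ * e) ^ 2 / (2 * μ)) =
          √N * √N / (2 * μ) * φ x - √N * (φ x * e) + φ x * (μ / 2 * e ^ 2) := by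
        field_simp; ring
      linarith
    have a2 : √N * (n * d * e) ≤ √N * √N * μ / 2 + n ^ 2 / (2 * μ) * (d * e) ^ 2 := by
      have q := div_nonneg (sq_nonneg (√N * μ - n * (d * e))) (show 0 ≤ 2 * μ by positivity)
      have : (√N * μ - n * (d * e)) ^ 2 / (2 * μ) =
          √N * √N * μ / 2 - √N * (n * d * e) + n ^ 2 / (2 * μ) * (d * e) ^ 2 := by
        field_simp; ring
      linarith
    nlinarith [mul_le_mul_of_nonneg_left hφ2 hsN.le]
  have hc1 : Continuous fun x => (ev one x * conj (ev EW x)).re :=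
    Complex.continuous_re.comp ((continuous_ev _).mul
      (Complex.continuous_conj.comp (continuous_ev _)))
  have hI : ∀ {f : ℝ → ℝ}, Continuous f → IntervalIntegrable f volume 0 (2 * π) :=
    fun h => h.intervalIntegrable _ _
  have hs : ∀ A : ℝ[X], Continuous fun x => ‖ev A x‖ ^ 2 := fun A => (continuous_ev A).norm.pow 2
  have g1 : Continuous fun x => √N * √N / (2 * μ) * φ x := continuous_const.mul hφc
  have g2 : Continuous fun x => μ / 2 * ‖ev EW x‖ ^ 2 := continuous_const.mul (hs EW)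
  have g4 : Continuous fun x => (n : ℝ) ^ 2 / (2 * μ) * ‖ev Df x‖ ^ 2 :=
    continuous_const.mul (hs Df)
  have g12 : Continuous fun x => √N * √N / (2 * μ) * φ x + μ / 2 * ‖ev EW x‖ ^ 2 := g1.add g2
  have g123 : Continuous fun x =>
      √N * √N / (2 * μ) * φ x + μ / 2 * ‖ev EW x‖ ^ 2 + √N * √N * μ / 2 := g12.add continuous_const
  have g : Continuous fun x => C * (√N * √N / (2 * μ) * φ x + μ / 2 * ‖ev EW x‖ ^ 2 +
      √N * √N * μ / 2 + n ^ 2 / (2 * μ) * ‖ev Df x‖ ^ 2) := continuous_const.mul (g123.add g4)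
  have h := intervalIntegral.integral_mono_on (a := (0 : ℝ)) (b := 2 * π) (μ := volume)
    (by positivity) (hI hc1) (hI g) fun x _ => hpt x
  rw [parseval one EW (M := N + 1) (Nat.lt_succ_of_le (twist_natDegree _ _ _))
    (Nat.lt_succ_of_le hEWd), hinner, intervalIntegral.integral_const_mul,
    intervalIntegral.integral_add (hI g123) (hI g4),
    intervalIntegral.integral_add (hI g12) (hI continuous_const),
    intervalIntegral.integral_add (hI g1) (hI g2),
    intervalIntegral.integral_const_mul, intervalIntegral.integral_const_mul,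
    intervalIntegral.integral_const_mul, parseval_sq EW (M := N + 1) (Nat.lt_succ_of_le hEWd),
    parseval_sq Df (M := Q + N + 1) (Nat.lt_succ_of_le hDd), intervalIntegral.integral_const, smul_eq_mul,
    Real.mul_self_sqrt (Nat.cast_nonneg N)] at h
  refine h.trans (mul_le_mul_of_nonneg_left ?_ hC)
  have q1 := mul_le_mul_of_nonneg_left henergy (show 0 ≤ π * μ by positivity)
  have q2 := mul_le_mul_of_nonneg_left hDf (show 0 ≤ (n : ℝ) ^ 2 * π / μ by positivity)
  simp only [φ] at *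
  ring_nf at q1 q2 ⊢
  linarith

/-- Failures of periodicity are near indices that are not killed. -/
theorem card_bad_le {B : ℤ[X]} (hA0 : (B ^ 2).coeff 0 ≠ 0) {K m : ℕ}
    (hK : ∀ (E : ℤ[X]), (∀ k, |E.coeff k| ≤ 1) → ∀ j, K * (m + 1) ^ 2 ≤ j →
      (∀ i, j ≤ i + K * (m + 1) ^ 2 → i ≤ j + K * (m + 1) ^ 2 → (B ^ m * E).coeff i = 0) →
        (B ^ 2 * E).coeff j = 0)
    {N a b R : ℕ} (hb : b ≤ N)
    (hR : R = K * (m + 1) ^ 2 +
      (2 ^ (B ^ 2).natDegree + (B ^ 2).natDegree + 2 * (2 ^ (B ^ 2).natDegree).factorial))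
    (ε : ℕ → ℤ) (hε : ∀ k < N, ε k = 1 ∨ ε k = -1) :
    ((Finset.Ico (a + R) (b - R)).filter fun j => j + (2 ^ (B ^ 2).natDegree).factorial < b - R ∧
      ε (j + (2 ^ (B ^ 2).natDegree).factorial) ≠ ε j).card ≤ (2 * R + 1) *
    ((Finset.Ico a b).filter fun j =>
      (B ^ m * ∑ k ∈ Finset.range N, Polynomial.C (ε k) * X ^ k).coeff j ≠ 0).card := by
  set E := ∑ k ∈ Finset.range N, Polynomial.C (ε k) * X ^ k
  have hEc : ∀ i < N, E.coeff i = ε i := fun i hi => by
    simp [E, finsetSum_coeff, coeff_X_pow, hi]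
  have hEb : ∀ i, |E.coeff i| ≤ 1 := fun i => by
    rcases lt_or_ge i N with hi | hi
    · rw [hEc i hi]; rcases hε i hi with e | e <;> simp [e]
    · simp [E, finsetSum_coeff, coeff_X_pow, show ¬ i < N by omega]
  have := Nat.two_pow_pos (B ^ 2).natDegree
  set V := (Finset.Ico a b).filter fun j => (B ^ m * E).coeff j ≠ 0
  refine (Finset.card_le_card (t := V.biUnion fun i => Finset.Icc (i - R) (i + R))
    fun j hj => ?_).trans (Finset.card_biUnion_le.trans ?_)
  · simp only [Finset.mem_filter, Finset.mem_Ico] at hj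
    by_contra hno
    simp only [Finset.mem_biUnion, Finset.mem_Icc, not_exists, not_and] at hno
    have hz : ∀ i, j ≤ i + R → i ≤ j + R → (B ^ m * E).coeff i = 0 := fun i h1 h2 => by
      by_contra hne
      exact hno i (Finset.mem_filter.2 ⟨Finset.mem_Ico.2 (by omega), hne⟩) (by omega) (by omega)
    have hper := periodic_of_recurrence (E := E) hA0 (j := j) (by omega)
      (fun u hu _ => by rw [hEc u (by omega)]; exact hε u (by omega))
      (fun u h1 h2 => hK E hEb u (by omega) fun i h3 h4 => hz i (by omega) (by omega))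
    rw [hEc _ (by omega), hEc _ (by omega)] at hper
    exact hj.2.2 hper
  · refine (Finset.sum_le_card_nsmul _ _ (2 * R + 1) fun i _ => ?_).trans (by simp [mul_comm])
    rw [Nat.card_Icc]; omega

/-- The three small terms cannot make up the energy of the window. -/
theorem small_terms {C' w₀ μ δ I X₀ W N : ℝ} {n : ℕ} (hC : 1 ≤ C') (hw : 0 < w₀) (hN : 0 < N)
    (hμ : μ = w₀ / (4 * C')) (hI : I < μ * w₀ / C')
    (hδ : δ = w₀ * μ / (16 * C' * ((n : ℝ) ^ 2 + 1))) (hX : X₀ ≤ δ * N) (hW : w₀ * N ≤ W) :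
    C' * (N * I / (2 * μ) + 2 * π * μ * N + (n : ℝ) ^ 2 * π * (4 * X₀) / μ) < 2 * π * W := by
  have hμ0 : 0 < μ := by rw [hμ]; positivity
  have t1 : C' * (N * I / (2 * μ)) ≤ w₀ * N / 2 := by
    have := mul_le_mul_of_nonneg_left hI.le (show 0 ≤ C' * N / (2 * μ) by positivity)
    calc C' * (N * I / (2 * μ)) = C' * N / (2 * μ) * I := by ring
      _ ≤ _ := this
      _ = w₀ * N / 2 := by field_simp
  have t2 : C' * (2 * π * μ * N) = π * w₀ * N / 2 := by
    rw [hμ]; field_simp; ring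
  have t3 : C' * ((n : ℝ) ^ 2 * π * (4 * X₀) / μ) ≤ π * w₀ * N / 4 := by
    have h1 := mul_le_mul_of_nonneg_left hX (show 0 ≤ C' * (n : ℝ) ^ 2 * π * 4 / μ by positivity)
    calc C' * ((n : ℝ) ^ 2 * π * (4 * X₀) / μ) = C' * (n : ℝ) ^ 2 * π * 4 / μ * X₀ := by ring
      _ ≤ _ := h1
      _ = π * w₀ * N / 4 * ((n : ℝ) ^ 2 / ((n : ℝ) ^ 2 + 1)) := by rw [hδ]; field_simp; ring
      _ ≤ π * w₀ * N / 4 := mul_le_of_le_one_right (by positivity)
          ((div_le_one (by positivity)).2 (by linarith))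
  rw [mul_add, mul_add]
  have := mul_le_mul_of_nonneg_left hW (show 0 ≤ 2 * π by positivity)
  have := mul_le_mul_of_nonneg_right two_le_pi (mul_nonneg hw.le hN.le)
  linarith [mul_pos hw hN]

/-- On every arc, a smoothly cut window of positive length of a bounded Littlewood polynomial
carries a positive proportion of the energy. -/
theorem core (C a b θ₀ θ₁ : ℝ) (ha : 0 ≤ a) (hab : a < b) (hb : b ≤ 1)
    (h0 : 0 ≤ θ₀) (h : θ₀ < θ₁) (h1 : θ₁ ≤ π) :
    ∃ c : ℝ, 0 < c ∧ ∀ Λ : ℝ, ∃ N₀ : ℕ, ∀ N : ℕ, N₀ ≤ N → ∀ (ε : ℕ → ℤ) (w : ℕ → ℝ),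
      (∀ k < N, ε k = 1 ∨ ε k = -1) → (∀ k, |w k| ≤ 1) →
      (∑ k ∈ Finset.range N, (w (k + 1) - w k) ^ 2 ≤ Λ) →
      (∀ k < N, a * N < k → (k : ℝ) < b * N → 1 / 2 ≤ w k) →
      (∀ x, ‖ev (twist N (fun _ => 1) ε) x‖ ≤ C * √N) →
      c * N ≤ ∫ t in θ₀..θ₁, ‖ev (twist N w ε) t‖ ^ 2 := by
  obtain ⟨B, hB0, hBout⟩ := exists_filter h0 h h1
  have hB : B ≠ 0 := fun e => hB0 (by simp [e])
  obtain ⟨K, hK⟩ := smoothing hB
  set A := B ^ 2 with hA
  have hA0 : A.coeff 0 ≠ 0 := by simp [hA, sq, mul_coeff_zero, hB0]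
  set Q := (2 ^ A.natDegree).factorial with hQdef
  have hQ : 0 < Q := Nat.factorial_pos _
  set M₀ := 2 ^ A.natDegree + A.natDegree + 2 * Q with hM₀
  set C' := max C 1 with hC'def
  have hC'1 : 1 ≤ C' := le_max_right _ _
  set w₀ := (b - a) / 2 with hw₀
  have hw₀0 : 0 < w₀ := by rw [hw₀]; linarith
  set μ := w₀ / (4 * C') with hμdef
  have hμ : 0 < μ := by positivity
  obtain ⟨n, hn⟩ : ∃ n : ℕ, ∫ x in (0 : ℝ)..2 * π, 1 / (1 + n * ‖ev (1 - X ^ Q) x‖) <
      μ * w₀ / C' :=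
    ((tendsto_integral_kernel hQ).eventually (gt_mem_nhds (by positivity))).exists
  set δ := w₀ * μ / (16 * C' * ((n : ℝ) ^ 2 + 1)) with hδdef
  have hδ : 0 < δ := by positivity
  set rad : ℕ → ℕ := fun m => K * (m + 1) ^ 2 + M₀ with hrad
  obtain ⟨m, hm⟩ : ∃ m : ℕ, (2 * (rad m : ℝ) + 1) * 16 * (1 / 4) ^ m < δ / 3 := by
    have t : Tendsto (fun m : ℕ => (2 * (K : ℝ) + 2 * M₀ + 1) * 16 * 4 *
        (((m + 1 : ℕ) : ℝ) ^ 2 * (1 / 4) ^ (m + 1))) atTop (𝓝 0) := by
      simpa using ((tendsto_pow_const_mul_const_pow_of_abs_lt_one 2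
        (show |(1 / 4 : ℝ)| < 1 by norm_num)).comp (tendsto_add_atTop_nat 1)).const_mul
          ((2 * (K : ℝ) + 2 * M₀ + 1) * 16 * 4)
    obtain ⟨m, hm⟩ := (t.eventually (gt_mem_nhds (show (0 : ℝ) < δ / 3 by positivity))).exists
    refine ⟨m, lt_of_le_of_lt ?_ hm⟩
    simp only [hrad, Nat.cast_add, Nat.cast_mul, Nat.cast_pow, Nat.cast_one, pow_succ (1 / 4 : ℝ)]
    have h1 : (1 : ℝ) ≤ ((m : ℝ) + 1) ^ 2 := by nlinarith [Nat.cast_nonneg (α := ℝ) m]
    have h2 : (0 : ℝ) < (1 / 4) ^ m := by positivity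
    nlinarith [mul_le_mul_of_nonneg_left h1 (show (0 : ℝ) ≤ (2 * M₀ + 1) * (1 / 4) ^ m by positivity)]
  set R := rad m
  set M := (B ^ m).natDegree
  set β := mass B
  have hβ : 1 ≤ β := one_le_mass hB
  set S := ∑ l ∈ Finset.range (M + 1), ((B ^ m).coeff l : ℝ) ^ 2
  set c := δ / (3 * ((2 * (R : ℝ) + 1) * 16 * (β ^ 2) ^ m)) with hc
  refine ⟨c, by positivity, fun Λ => ?_⟩
  set G := (2 * (R : ℝ) + 1) * 16 * (S * ((M + 1) * M * M * Λ)) + 2 * Q
  obtain ⟨N₀, hN₀⟩ := exists_nat_ge (max (3 * G / δ)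
    (max ((M + 2 * R + 3 : ℝ) / w₀) 1))
  refine ⟨N₀, fun N hN ε w hε hw hΛ hwin hsup => ?_⟩
  have hN' : (N₀ : ℝ) ≤ N := Nat.cast_le.2 hN
  have hN1 : (1 : ℝ) ≤ N := (le_max_right _ _).trans ((le_max_right _ _).trans (hN₀.trans hN'))
  have hNw : (M + 2 * R + 3 : ℝ) ≤ w₀ * N := by
    have := ((le_max_left _ _).trans (le_max_right _ _)).trans (hN₀.trans hN')
    rwa [div_le_iff₀ hw₀0, mul_comm _ w₀] at this
  have hNG : G ≤ δ / 3 * N := by
    have := (le_max_left _ _).trans (hN₀.trans hN')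
    rw [div_le_iff₀ hδ] at this
    linarith
  by_contra hlt
  rw [not_le] at hlt
  set p := ⌊a * N⌋₊ + 1 with hp
  set q := ⌊b * N⌋₊ with hq
  have hqN : q ≤ N := by
    refine Nat.floor_le_of_le ?_
    exact mul_le_of_le_one_left (by positivity) hb
  have hp1 : a * N < p := by
    have := Nat.lt_floor_add_one (a * N); simp only [hp, Nat.cast_add, Nat.cast_one]; exact this
  have hp2 : (p : ℝ) ≤ a * N + 1 := by
    have := Nat.floor_le (show 0 ≤ a * N by positivity)
    simp only [hp, Nat.cast_add, Nat.cast_one]; linarith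
  have hq1 : (q : ℝ) ≤ b * N := Nat.floor_le (mul_nonneg (by linarith) (by positivity))
  have hq2 : b * N < q + 1 := Nat.lt_floor_add_one _
  have hsize : w₀ * N ≤ (q : ℝ) - p - M - 2 * R := by
    rw [hw₀] at hNw ⊢
    linarith
  have hpq : p + M + 2 * R ≤ q := by
    have : ((p + M + 2 * R : ℕ) : ℝ) ≤ q := by
      push_cast; linarith [mul_nonneg hw₀0.le (Nat.cast_nonneg (α := ℝ) N)]
    exact_mod_cast this
  set E := ∑ k ∈ Finset.range N, Polynomial.C (ε k) * X ^ k
  -- the energy of the filtered window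
  have hu : ∑ j ∈ Finset.range (M + N + 1),
      (((B ^ m).map (Int.castRingHom ℝ)) * twist N w ε).coeff j ^ 2 ≤
        (1 / 4) ^ m * N + (β ^ 2) ^ m * (c * N) := by
    have hd : ((B ^ m).map (Int.castRingHom ℝ) * twist N w ε).natDegree < M + N + 1 :=
      Nat.lt_succ_of_le (natDegree_mul_le.trans
        (Nat.add_le_add natDegree_map_le (twist_natDegree _ _ _)))
    have e := filtered_energy h0 h.le h1 m _ (twist N w ε) hBout (norm_ev_le_mass B)
    rw [← Polynomial.map_pow, parseval_sq _ hd,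
      parseval_sq (twist N w ε) (M := N + 1) (Nat.lt_succ_of_le (twist_natDegree _ _ _))] at e
    have hW : ∑ k ∈ Finset.range (N + 1), (twist N w ε).coeff k ^ 2 ≤ N := by
      rw [Finset.sum_range_succ, twist_coeff N w ε N, if_neg (lt_irrefl N)]
      refine le_of_le_of_eq (add_le_add (Finset.sum_le_card_nsmul _ _ 1 fun k hk => ?_) le_rfl)
        (by simp)
      rw [twist_coeff, if_pos (Finset.mem_range.1 hk), mul_pow]
      rcases hε k (Finset.mem_range.1 hk) with e | e <;> simpa [e, sq_le_one_iff_abs_le_one] using hw k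
    have hπ := two_le_pi
    have i1 := mul_le_mul_of_nonneg_left hW (show (0 : ℝ) ≤ 2 * π * (1 / 4) ^ m by positivity)
    have i2 := mul_le_mul_of_nonneg_left hlt.le (show (0 : ℝ) ≤ 2 * (β ^ 2) ^ m by positivity)
    have i3 : 0 ≤ (β ^ 2) ^ m * (c * N) := by positivity
    have i4 := mul_le_mul_of_nonneg_right (show (2 : ℝ) ≤ 2 * π by linarith) i3
    refine le_of_mul_le_mul_left ?_ (show 0 < 2 * π by positivity)
    linarith
  have hV := card_nonkilled_le hqN ε hε w (B ^ m) le_rfl (p := p) (fun j hj hj' => by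
    refine hwin j (by omega) (hp1.trans_le (by exact_mod_cast hj)) ?_
    have : ((j + 1 : ℕ) : ℝ) ≤ q := by exact_mod_cast hj'
    push_cast at this; linarith) hΛ
  set V := (Finset.Ico (p + M) q).filter fun j => (B ^ m * E).coeff j ≠ 0
  -- failures of periodicity are close to indices that are not killed
  set bad := (Finset.Ico (p + M + R) (q - R)).filter fun j => j + Q < q - R ∧ ε (j + Q) ≠ ε j
  have hbad : bad.card ≤ (2 * R + 1) * V.card :=
    card_bad_le hA0 (hK m) hqN rfl ε hε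
  have hkey : (bad.card : ℝ) + 2 * Q ≤ δ * N := by
    have h1 : (bad.card : ℝ) ≤ (2 * R + 1) * V.card := by exact_mod_cast hbad
    have h2 := mul_le_mul_of_nonneg_left (hV.trans (mul_le_mul_of_nonneg_left
      (add_le_add hu le_rfl) (by norm_num))) (show (0 : ℝ) ≤ 2 * R + 1 by positivity)
    have h3 := mul_le_mul_of_nonneg_right hm.le (show (0 : ℝ) ≤ N by positivity)
    have h4 : (2 * (R : ℝ) + 1) * 16 * ((β ^ 2) ^ m * (c * N)) = δ / 3 * N := by
      rw [hc]; field_simp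
    simp only [G] at hNG
    linarith
  have hfin := not_periodic (s := p + M + R) (t' := q - R) (Q := Q) (n := n)
    (show 0 < N by exact_mod_cast lt_of_lt_of_le one_pos hN1)
    (by omega) (by omega) ε hε (fun x => (hsup x).trans
      (mul_le_mul_of_nonneg_right (le_max_left C 1) (Real.sqrt_nonneg _))) hμ
  have hts : w₀ * N ≤ ((q - R - (p + M + R) : ℕ) : ℝ) := by
    rw [Nat.cast_sub (by omega), Nat.cast_sub (show R ≤ q by omega)]
    push_cast; linarith
  exact absurd hfin (not_le.2 (small_terms hC'1 hw₀0 (by linarith) hμdef hn hδdef hkey hts))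

end

end Vale.Agent.P110.Spread
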