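import Mathlib

/-!
# P110: an integer polynomial small off an arc

A monic real polynomial of Chebyshev type is less than 2 on the cosines of all angles outside a
gap. Pigeonhole in a basis made from it gives an integer polynomial less than one there.
-/

namespace Vale.Agent.P110.Spread

open Polynomial Real

noncomputable section

/-- Chebyshev recursion at `P` with parameter `q`. -/
def cheb (P : ℝ[X]) (q : ℝ) : ℕ → ℝ[X]
  | 0 => C 2
  | 1 => P
  | n + 2 => P * cheb P q (n + 1) - C q * cheb P q n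

theorem cheb_eval (P : ℝ[X]) (h θ x : ℝ) (hx : P.eval x = 2 * h * cos θ) :
    ∀ n : ℕ, (cheb P (h ^ 2) n).eval x = 2 * h ^ n * cos (n * θ)
  | 0 => by simp [cheb]
  | 1 => by simp [cheb, hx]
  | n + 2 => by
    simp only [cheb, eval_sub, eval_mul, eval_C, cheb_eval P h θ x hx (n + 1),
      cheb_eval P h θ x hx n, hx]
    push_cast
    have e1 := cos_add ((n + 1) * θ) θ
    have e2 := cos_sub ((n + 1) * θ) θ
    rw [show (n + 1 : ℝ) * θ + θ = (n + 2) * θ by ring] at e1
    rw [show (n + 1 : ℝ) * θ - θ = n * θ by ring] at e2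
    rw [e1, e2]; ring

theorem degree_C_mul_le' (a : ℝ) (f : ℝ[X]) : (C a * f).degree ≤ f.degree :=
  (degree_mul_le _ _).trans (add_le_of_nonpos_left degree_C_le)

theorem natDegree_lt_of_degree {p q : ℝ[X]} (hp : 0 < p.natDegree) (h : q.degree < p.degree) :
    q.natDegree < p.natDegree := by
  rcases eq_or_ne q 0 with rfl | hq
  · simpa using hp
  · exact natDegree_lt_natDegree hq h

theorem cheb_monic {P : ℝ[X]} (hP : P.Monic) (hk : 0 < P.natDegree) (q : ℝ) (n : ℕ) :
    (cheb P q (n + 1)).Monic ∧ (cheb P q (n + 1)).natDegree = (n + 1) * P.natDegree := by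
  suffices h : (cheb P q n).natDegree ≤ n * P.natDegree ∧
      (cheb P q (n + 1)).Monic ∧ (cheb P q (n + 1)).natDegree = (n + 1) * P.natDegree from h.2
  induction n with
  | zero => simp [cheb, hP]
  | succ n ih =>
    obtain ⟨h0, h1, h2⟩ := ih
    have hm : (P * cheb P q (n + 1)).Monic := hP.mul h1
    have hd : (P * cheb P q (n + 1)).natDegree = (n + 2) * P.natDegree := by
      rw [hP.natDegree_mul h1, h2]; ring
    have hlt : (C q * cheb P q n).degree < (P * cheb P q (n + 1)).degree := by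
      refine lt_of_le_of_lt degree_le_natDegree ?_
      rw [degree_eq_natDegree hm.ne_zero, hd]
      refine WithBot.coe_lt_coe.2 (lt_of_le_of_lt ((natDegree_C_mul_le _ _).trans h0) ?_)
      exact Nat.mul_lt_mul_of_pos_right (by omega) hk
    exact ⟨h2.le, hm.sub_of_left hlt, by
      show (P * cheb P q (n + 1) - C q * cheb P q n).natDegree = _
      rw [natDegree_sub_eq_left_of_natDegree_lt
        (natDegree_lt_of_degree (by rw [hd]; positivity) hlt), hd]⟩

/-- A monic real polynomial less than two outside a gap. -/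
theorem exists_monic_lt_two {θ₀ θ₁ : ℝ} (h0 : 0 ≤ θ₀) (h : θ₀ < θ₁) (h1 : θ₁ ≤ π) :
    ∃ (P : ℝ[X]) (r : ℝ), P.Monic ∧ 0 < P.natDegree ∧ 0 < r ∧ r < 2 ∧
      ∀ θ ∈ Set.Icc 0 π \ Set.Ioo θ₀ θ₁, |P.eval (2 * cos θ)| ≤ r := by
  have hπ := pi_pos
  obtain ⟨k, hk⟩ := exists_nat_gt (π / (θ₁ - θ₀))
  have hk0 : (0 : ℝ) < k := lt_trans (by have := sub_pos.2 h; positivity) hk
  have hkn : 0 < k := Nat.cast_pos.1 hk0
  rw [div_lt_iff₀ (sub_pos.2 h)] at hk
  set j := ⌊θ₀ * k / π⌋₊ + 1 with hj
  have hjl : θ₀ < j * π / k := by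
    have := Nat.lt_floor_add_one (θ₀ * k / π)
    rw [div_lt_iff₀ hπ] at this
    rw [lt_div_iff₀ hk0, hj]; push_cast; linarith
  have hju : j * π / k < θ₁ := by
    have := Nat.floor_le (show 0 ≤ θ₀ * k / π by positivity)
    rw [le_div_iff₀ hπ] at this
    rw [div_lt_iff₀ hk0, hj]; push_cast; linarith
  have hjk : j ≤ k := by
    have := hju.trans_le h1
    rw [div_lt_iff₀ hk0, mul_comm π] at this
    exact_mod_cast (lt_of_mul_lt_mul_right this hπ.le).le
  let s := (Finset.range (k + 1)).erase j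
  let node : ℕ → ℝ := fun i => 2 * cos (i * π / k)
  have hmem : ∀ i ∈ s, (i : ℝ) * π / k ∈ Set.Icc 0 π := fun i hi => by
    have hi' : (i : ℝ) ≤ k := by
      exact_mod_cast Nat.lt_succ_iff.1 (Finset.mem_range.1 (Finset.mem_of_mem_erase hi))
    exact ⟨by positivity, by rw [div_le_iff₀ hk0]; nlinarith⟩
  have hinj : Set.InjOn node s := fun a ha b hb e => by
    have := injOn_cos (hmem a ha) (hmem b hb) (by simpa [node] using e)
    field_simp at this
    exact_mod_cast this
  let S : ℝ[X] := Lagrange.interpolate s node fun i => (-1) ^ i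
  have hS : S.degree < (k : WithBot ℕ) := by
    refine (Lagrange.degree_interpolate_lt _ hinj).trans_le ?_
    rw [Finset.card_erase_of_mem (Finset.mem_range.2 (by omega)), Finset.card_range]
    simp
  let A := Set.Icc 0 π \ Set.Ioo θ₀ θ₁
  have hA : IsCompact A := isCompact_Icc.diff isOpen_Ioo
  let f : ℝ → ℝ := fun θ => 2 * cos (k * θ)
  let g : ℝ → ℝ := fun θ => S.eval (2 * cos θ)
  have hf : Continuous f := by fun_prop
  have hg : Continuous g := by fun_prop
  have key : ∀ θ ∈ A, f θ * g θ ≤ 0 → |f θ| < 2 := by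
    intro θ hθ hle
    have hb : |f θ| ≤ 2 := by
      simp only [f, abs_mul, abs_two]; linarith [abs_cos_le_one (k * θ)]
    refine lt_of_le_of_ne hb fun e => ?_
    have hsin : sin (k * θ) = 0 := by
      have h2 : cos (k * θ) ^ 2 = 1 := by
        have : f θ ^ 2 = 4 := by rw [← sq_abs, e]; norm_num
        simp only [f] at this; linarith
      have := sin_sq_add_cos_sq (k * θ)
      exact pow_eq_zero_iff two_ne_zero |>.1 (by linarith)
    obtain ⟨i, hi⟩ := sin_eq_zero_iff.1 hsin
    have hi0 : 0 ≤ i := by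
      have : (0 : ℝ) ≤ i * π := hi ▸ mul_nonneg hk0.le hθ.1.1
      exact_mod_cast nonneg_of_mul_nonneg_left this hπ
    lift i to ℕ using hi0
    simp only [Int.cast_natCast] at hi
    have hik : i ≤ k := by
      have : (i : ℝ) * π ≤ k * π := hi ▸ mul_le_mul_of_nonneg_left hθ.1.2 hk0.le
      exact_mod_cast le_of_mul_le_mul_right this hπ
    have hθi : θ = i * π / k := by rw [hi]; field_simp
    have hne : i ≠ j := by rintro rfl; exact hθ.2 (by rw [hθi]; exact ⟨hjl, hju⟩)
    have eg : g θ = (-1) ^ i := by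
      simp only [g, S, hθi]
      exact Lagrange.eval_interpolate_at_node _ hinj
        (Finset.mem_erase.2 ⟨hne, Finset.mem_range.2 (by omega)⟩)
    have ef : f θ = 2 * (-1) ^ i := by simp only [f, ← hi, cos_nat_mul_pi]
    rw [eg, ef, mul_assoc, ← pow_add, ← two_mul, pow_mul] at hle
    norm_num at hle
  obtain ⟨M, hM⟩ := hA.exists_bound_of_continuousOn hg.continuousOn
  obtain ⟨t, ht, htM, htU⟩ : ∃ t : ℝ, 0 < t ∧ t * (|M| + 1) ≤ 1 ∧
      ∀ θ ∈ A, f θ * g θ ≤ 0 → |f θ| + t * (|M| + 1) < 2 := by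
    have hU : IsCompact (A ∩ {θ | f θ * g θ ≤ 0}) :=
      hA.inter_right (isClosed_le (hf.mul hg) continuous_const)
    rcases (A ∩ {θ | f θ * g θ ≤ 0}).eq_empty_or_nonempty with hU0 | hU0
    · exact ⟨1 / (|M| + 1), by positivity, by field_simp; rfl, fun θ hθ hle =>
        absurd (show θ ∈ A ∩ {θ | f θ * g θ ≤ 0} from ⟨hθ, hle⟩) (by simp [hU0])⟩
    · obtain ⟨θm, hm, hmax⟩ := hU.exists_isMaxOn hU0 hf.abs.continuousOn
      have hlt := key θm hm.1 hm.2
      refine ⟨min 1 ((2 - |f θm|) / 2) / (|M| + 1), by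
        have : 0 < (2 - |f θm|) / 2 := by linarith
        positivity, by field_simp; exact min_le_left _ _, fun θ hθ hle => ?_⟩
      have := isMaxOn_iff.1 hmax θ ⟨hθ, hle⟩
      rw [div_mul_cancel₀ _ (by positivity)]
      have := min_le_right 1 ((2 - |f θm|) / 2)
      linarith
  let P := cheb X 1 k - C t * S
  have hval : ∀ θ, P.eval (2 * cos θ) = f θ - t * g θ := fun θ => by
    have := cheb_eval X 1 θ (2 * cos θ) (by simp) k
    simp only [one_pow, mul_one] at this
    simp [P, f, g, this]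
  have hlt : ∀ θ ∈ A, |P.eval (2 * cos θ)| < 2 := by
    intro θ hθ
    have hgM : |g θ| ≤ |M| := (hM θ hθ).trans (le_abs_self M)
    have h2 : |f θ| ≤ 2 := by simp only [f, abs_mul, abs_two]; linarith [abs_cos_le_one (k * θ)]
    have htg : t * |g θ| ≤ t * (|M| + 1) := mul_le_mul_of_nonneg_left (by linarith) ht.le
    rw [hval]
    rcases le_or_gt (f θ * g θ) 0 with hle | hgt
    · calc |f θ - t * g θ| ≤ |f θ| + |t * g θ| := abs_sub _ _
        _ < 2 := by rw [abs_mul t, abs_of_pos ht]; linarith [htU θ hθ hle]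
    · rcases mul_pos_iff.1 hgt with ⟨a, b⟩ | ⟨a, b⟩
      · rw [abs_of_pos a] at h2; rw [abs_of_pos b] at htg; rw [abs_lt]
        constructor <;> nlinarith
      · rw [abs_of_neg a] at h2; rw [abs_of_neg b] at htg; rw [abs_lt]
        constructor <;> nlinarith
  obtain ⟨k', rfl⟩ : ∃ k', k = k' + 1 := ⟨k - 1, by omega⟩
  have hm := cheb_monic (monic_X (R := ℝ)) (by simp) 1 k'
  simp only [natDegree_X, mul_one] at hm
  have hd : (C t * S).degree < (cheb X 1 (k' + 1)).degree := by
    rw [degree_eq_natDegree hm.1.ne_zero, hm.2]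
    exact (degree_C_mul_le' _ _).trans_lt (by exact_mod_cast hS)
  have hdeg : P.natDegree = k' + 1 := by
    rw [← hm.2]
    exact natDegree_sub_eq_left_of_natDegree_lt
      (natDegree_lt_of_degree (by rw [hm.2]; omega) hd)
  have hA0 : A.Nonempty := ⟨0, ⟨le_rfl, hπ.le⟩, fun h' => absurd h'.1 (by linarith)⟩
  obtain ⟨θm, hmA, hmax⟩ := hA.exists_isMaxOn hA0
    (f := fun θ => |P.eval (2 * cos θ)|) (by fun_prop)
  exact ⟨P, max 1 |P.eval (2 * cos θm)|, hm.1.sub_of_left hd, by omega, by positivity,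
    max_lt one_lt_two (hlt θm hmA), fun θ hθ => (isMaxOn_iff.1 hmax θ hθ).trans (le_max_right _ _)⟩

variable (P : ℝ[X]) (h : ℝ)

/-- The basis: `l` is split by the degree of `P`. -/
def basisPoly (l : ℕ) : ℝ[X] :=
  X ^ (l % P.natDegree) *
    if l / P.natDegree = 0 then 1 else cheb P (h ^ 2) (l / P.natDegree)

variable {P h}

theorem basisPoly_monic (hP : P.Monic) (hk : 0 < P.natDegree) (l : ℕ) :
    (basisPoly P h l).Monic ∧ (basisPoly P h l).natDegree = l := by
  unfold basisPoly
  split_ifs with h0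
  · rw [Nat.div_eq_zero_iff] at h0
    simp [monic_X_pow, Nat.mod_eq_of_lt (show l < P.natDegree by omega)]
  · obtain ⟨i, hi⟩ := Nat.exists_eq_succ_of_ne_zero h0
    obtain ⟨h1, h2⟩ := cheb_monic hP hk (h ^ 2) i
    rw [hi]
    refine ⟨(monic_X_pow _).mul h1, ?_⟩
    rw [(monic_X_pow _).natDegree_mul h1, natDegree_X_pow, h2, ← Nat.succ_eq_add_one, ← hi]
    exact Nat.mod_add_div' l P.natDegree

theorem basisPoly_coeff (hP : P.Monic) (hk : 0 < P.natDegree) (l : ℕ) :
    (basisPoly P h l).coeff l = 1 := by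
  obtain ⟨h1, h2⟩ := basisPoly_monic (h := h) hP hk l
  have := h1.leadingCoeff
  rwa [leadingCoeff, h2] at this

/-- Rounding upwards in the basis gives integer coefficients. -/
theorem exists_round (hP : P.Monic) (hk : 0 < P.natDegree) :
    ∀ (n : ℕ) (u : ℝ[X]), u.degree < (n : WithBot ℕ) →
      ∃ (p : ℤ[X]) (c : ℕ → ℝ), (∀ l, 0 ≤ c l ∧ c l < 1) ∧
        p.map (Int.castRingHom ℝ) = u + ∑ l ∈ Finset.range n, C (c l) * basisPoly P h l
  | 0, u, hu => ⟨0, 0, fun _ => by simp, by
      simp [degree_eq_bot.1 (Nat.WithBot.lt_zero_iff.1 (by simpa using hu))]⟩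
  | n + 1, u, hu => by
    let a := u.coeff n
    let c₀ : ℝ := ⌈a⌉ - a
    let u' := u + C c₀ * basisPoly P h n - C (⌈a⌉ : ℝ) * X ^ n
    obtain ⟨h1, h2⟩ := basisPoly_monic (h := h) hP hk n
    have hu' : u'.degree < (n : WithBot ℕ) := by
      refine degree_lt_iff_coeff_zero _ _ |>.2 fun m hm => ?_
      rcases eq_or_lt_of_le hm with heq | hlt
      · subst m
        simp only [u', coeff_sub, coeff_add, coeff_C_mul, coeff_X_pow, if_pos, c₀, a,
          basisPoly_coeff hP hk n]
        ring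
      · have e1 : u.coeff m = 0 := degree_lt_iff_coeff_zero _ _ |>.1 hu m hlt
        have e2 : (basisPoly P h n).coeff m = 0 := coeff_eq_zero_of_natDegree_lt (h2.trans_lt hlt)
        simp [u', e1, e2, coeff_X_pow, hlt.ne']
    obtain ⟨p, c, hc, hp⟩ := exists_round hP hk n u' hu'
    refine ⟨p + C ⌈a⌉ * X ^ n, fun l => if l = n then c₀ else c l, fun l => ?_, ?_⟩
    · simp only; split_ifs
      · exact ⟨sub_nonneg.2 (Int.le_ceil a), by linarith [Int.ceil_lt_add_one a]⟩
      · exact hc l
    · rw [Finset.sum_range_succ, Finset.sum_congr rfl fun l hl => by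
        rw [show (fun l => if l = n then c₀ else c l) l = c l from
          if_neg (Finset.mem_range.1 hl).ne]]
      simp only [↓reduceIte]
      simp only [Polynomial.map_add, hp, Polynomial.map_mul, Polynomial.map_pow, map_X, map_X,
        eq_intCast, u', Polynomial.map_intCast, map_intCast]
      ring

theorem basis_indep (hP : P.Monic) (hk : 0 < P.natDegree) :
    ∀ (n : ℕ) (c : ℕ → ℝ), ∑ l ∈ Finset.range n, C (c l) * basisPoly P h l = 0 →
      ∀ l < n, c l = 0
  | 0, _, _, _, hl => absurd hl (Nat.not_lt_zero _)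
  | n + 1, c, hc, l, hl => by
    have hn : c n = 0 := by
      have := congrArg (coeff · n) hc
      simp only [finsetSum_coeff, coeff_C_mul, coeff_zero] at this
      rw [Finset.sum_range_succ, Finset.sum_eq_zero fun i hi => by
        rw [coeff_eq_zero_of_natDegree_lt (by
          rw [(basisPoly_monic (h := h) hP hk i).2]; exact Finset.mem_range.1 hi), mul_zero],
        basisPoly_coeff hP hk] at this
      simpa using this
    rcases Nat.lt_succ_iff_lt_or_eq.1 hl with hlt | rfl
    · exact basis_indep hP hk n c (by simpa [Finset.sum_range_succ, hn] using hc) l hlt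
    · exact hn

/-- An integer polynomial in the cosine that is less than one outside a gap. -/
theorem exists_int_small {θ₀ θ₁ : ℝ} (h0 : 0 ≤ θ₀) (h : θ₀ < θ₁) (h1 : θ₁ ≤ π) :
    ∃ p : ℤ[X], p ≠ 0 ∧ ∀ θ ∈ Set.Icc 0 π \ Set.Ioo θ₀ θ₁,
      |(p.map (Int.castRingHom ℝ)).eval (2 * cos θ)| ≤ 1 / 2 := by
  obtain ⟨P, r, hP, hk, hr0, hr2, hPr⟩ := exists_monic_lt_two h0 h h1
  set k := P.natDegree
  set e := r / 2 with he
  have he0 : 0 < e := by positivity
  have he1 : e < 1 := by rw [he]; linarith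
  have hb : ∀ θ ∈ Set.Icc 0 π \ Set.Ioo θ₀ θ₁, ∀ l,
      |(basisPoly P e l).eval (2 * cos θ)| ≤ 2 ^ (k + 1) * e ^ (l / k) := by
    intro θ hθ l
    have hx : |2 * cos θ| ≤ 2 := by rw [abs_mul, abs_two]; linarith [abs_cos_le_one θ]
    have hp : |2 * cos θ| ^ (l % k) ≤ 2 ^ k :=
      (pow_le_pow_left₀ (abs_nonneg _) hx _).trans
        (pow_le_pow_right₀ one_le_two (Nat.mod_lt l hk).le)
    have hq : |(if l / k = 0 then 1 else cheb P (e ^ 2) (l / k)).eval (2 * cos θ)| ≤
        2 * e ^ (l / k) := by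
      split_ifs with hz
      · rw [hz]; simp
      · have hv := hPr θ hθ
        rw [abs_le] at hv
        have hφ : cos (arccos (P.eval (2 * cos θ) / r)) = P.eval (2 * cos θ) / r :=
          cos_arccos (by rw [le_div_iff₀ hr0]; linarith) (by rw [div_le_iff₀ hr0]; linarith)
        rw [cheb_eval P e _ _ (by rw [hφ, he]; field_simp), abs_mul, abs_mul, abs_two,
          abs_of_pos (pow_pos he0 _)]
        exact mul_le_of_le_one_right (by positivity) (abs_cos_le_one _)
    calc |(basisPoly P e l).eval (2 * cos θ)| ≤ 2 ^ k * (2 * e ^ (l / k)) := by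
          simp only [basisPoly, eval_mul, eval_pow, eval_X]; rw [abs_mul, abs_pow]
          exact mul_le_mul hp hq (abs_nonneg _) (by positivity)
      _ = _ := by ring
  set W : ℝ := 2 ^ (k + 1)
  obtain ⟨i, hi⟩ : ∃ i : ℕ, 0 < i ∧
      (k * i : ℝ) * (4 * (k * i) * W + 3) * W * e ^ i < 1 / 4 := by
    have t1 := tendsto_pow_const_mul_const_pow_of_abs_lt_one 2
      (show |e| < 1 by rwa [abs_of_pos he0])
    have t2 := tendsto_self_mul_const_pow_of_abs_lt_one (show |e| < 1 by rwa [abs_of_pos he0])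
    have t := ((t1.const_mul ((4 : ℝ) * k ^ 2 * W ^ 2)).add (t2.const_mul (3 * k * W)))
    simp only [mul_zero, add_zero] at t
    obtain ⟨i, h2, h3⟩ := ((t.eventually (gt_mem_nhds (show (0 : ℝ) < 1 / 4 by norm_num))).and
      (Filter.eventually_gt_atTop 0)).exists
    exact ⟨i, h3, lt_of_eq_of_lt (by ring) h2⟩
  obtain ⟨hi0, hi⟩ := hi
  set S := k * i
  have hS : 0 < S := Nat.mul_pos hk hi0
  set K := ⌈4 * (S : ℝ) * W⌉₊ + 1
  have hK : 4 * (S : ℝ) * W ≤ K := (Nat.le_ceil _).trans (by simp [K])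
  have hK2 : (K : ℝ) ≤ 4 * S * W + 2 := by
    have := Nat.ceil_lt_add_one (show 0 ≤ 4 * (S : ℝ) * W by positivity)
    simp only [K, Nat.cast_add, Nat.cast_one]; linarith
  let T : (Fin S → Fin (K + 1)) → ℕ → ℝ := fun v l =>
    if hl : S ≤ l ∧ l < 2 * S then (v ⟨l - S, by omega⟩ : ℕ) else 0
  let u : (Fin S → Fin (K + 1)) → ℝ[X] := fun v =>
    ∑ l ∈ Finset.range (2 * S), C (T v l) * basisPoly P e l
  have hu : ∀ v, (u v).degree < ((2 * S : ℕ) : WithBot ℕ) := fun v =>
    (degree_sum_le _ _).trans_lt ((Finset.sup_lt_iff (WithBot.bot_lt_coe _)).2 fun l hl =>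
      lt_of_le_of_lt (degree_C_mul_le' _ _) (by
        rw [degree_eq_natDegree (basisPoly_monic hP hk l).1.ne_zero, (basisPoly_monic hP hk l).2]
        exact_mod_cast Finset.mem_range.1 hl))
  choose p c hc hp using fun v => exists_round (h := e) hP hk (2 * S) (u v) (hu v)
  let cell : (Fin S → Fin (K + 1)) → Fin S → Fin K := fun v l =>
    ⟨⌊(K : ℝ) * c v l.1⌋₊, by
      rw [Nat.floor_lt (mul_nonneg (by positivity) (hc v _).1)]
      exact mul_lt_of_lt_one_right (by positivity) (hc v _).2⟩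
  obtain ⟨v, v', hne, hcell⟩ := Fintype.exists_ne_map_eq_of_card_lt cell (by
    simp only [Fintype.card_pi, Fintype.card_fin, Finset.prod_const, Finset.card_univ]
    exact Nat.pow_lt_pow_left (by omega) hS.ne')
  let d : ℕ → ℝ := fun l => (T v l + c v l) - (T v' l + c v' l)
  have hd : (p v - p v').map (Int.castRingHom ℝ) =
      ∑ l ∈ Finset.range (2 * S), C (d l) * basisPoly P e l := by
    simp only [Polynomial.map_sub, hp, u, d, map_sub, map_add, sub_mul, add_mul,
      Finset.sum_sub_distrib, Finset.sum_add_distrib]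
  refine ⟨p v - p v', fun hz => hne ?_, fun θ hθ => ?_⟩
  · funext l
    rw [hz, Polynomial.map_zero] at hd
    have := basis_indep hP hk _ d hd.symm (l.1 + S) (by omega)
    simp only [d, T, dif_pos (show S ≤ l.1 + S ∧ l.1 + S < 2 * S by omega),
      Nat.add_sub_cancel] at this
    have a1 := hc v (l.1 + S)
    have a2 := hc v' (l.1 + S)
    refine Fin.ext ?_
    rcases lt_trichotomy (v l).1 (v' l).1 with hlt | heq | hlt
    · have : ((v l).1 : ℝ) + 1 ≤ (v' l).1 := by exact_mod_cast hlt
      linarith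
    · exact heq
    · have : ((v' l).1 : ℝ) + 1 ≤ (v l).1 := by exact_mod_cast hlt
      linarith
  · rw [hd, eval_finsetSum, two_mul S, Finset.sum_range_add]
    refine (abs_add_le _ _).trans ?_
    have h1 : |∑ l ∈ Finset.range S, (C (d l) * basisPoly P e l).eval (2 * cos θ)| ≤ 1 / 4 := by
      refine (Finset.abs_sum_le_sum_abs _ _).trans ?_
      refine (Finset.sum_le_card_nsmul _ _ (1 / K * W) fun l hl => ?_).trans ?_
      · have hl' := Finset.mem_range.1 hl
        have e0 : d l = c v l - c v' l := by simp [d, T, show ¬ S ≤ l by omega]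
        have hf := congrArg Fin.val (congrFun hcell ⟨l, hl'⟩)
        simp only [cell] at hf
        have := Nat.floor_le (mul_nonneg (Nat.cast_nonneg K) (hc v l).1)
        have := Nat.floor_le (mul_nonneg (Nat.cast_nonneg K) (hc v' l).1)
        have := Nat.lt_floor_add_one ((K : ℝ) * c v l)
        have := Nat.lt_floor_add_one ((K : ℝ) * c v' l)
        have hdl : |d l| ≤ 1 / K := by
          rw [e0, abs_le, neg_le, le_div_iff₀ (by positivity), le_div_iff₀ (by positivity)]
          rw [hf] at *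
          constructor <;> nlinarith
        rw [eval_mul, eval_C, abs_mul]
        exact mul_le_mul hdl ((hb θ hθ l).trans (mul_le_of_le_one_right (by positivity)
          (pow_le_one₀ he0.le he1.le))) (abs_nonneg _) (by positivity)
      · rw [Finset.card_range, nsmul_eq_mul, show (S : ℝ) * (1 / K * W) = S * W / K by ring,
          div_le_iff₀ (by positivity)]
        linarith
    have h2 : |∑ l ∈ Finset.range S, (C (d (S + l)) * basisPoly P e (S + l)).eval (2 * cos θ)| ≤
        1 / 4 := by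
      refine (Finset.abs_sum_le_sum_abs _ _).trans ?_
      refine (Finset.sum_le_card_nsmul _ _ ((4 * S * W + 3) * (W * e ^ i)) fun l hl => ?_).trans ?_
      · have hl' := Finset.mem_range.1 hl
        have b1 : ((v ⟨l, hl'⟩).1 : ℝ) ≤ K := by
          exact_mod_cast Nat.lt_succ_iff.1 (v ⟨l, hl'⟩).2
        have b2 : ((v' ⟨l, hl'⟩).1 : ℝ) ≤ K := by
          exact_mod_cast Nat.lt_succ_iff.1 (v' ⟨l, hl'⟩).2
        have hdl : |d (S + l)| ≤ 4 * S * W + 3 := by
          simp only [d, T, dif_pos (show S ≤ S + l ∧ S + l < 2 * S by omega),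
            Nat.add_sub_cancel_left, abs_le]
          have := hc v (S + l); have := hc v' (S + l)
          have : (0 : ℝ) ≤ (v ⟨l, hl'⟩).1 := Nat.cast_nonneg _
          have : (0 : ℝ) ≤ (v' ⟨l, hl'⟩).1 := Nat.cast_nonneg _
          constructor <;> linarith
        rw [eval_mul, eval_C, abs_mul]
        exact mul_le_mul hdl ((hb θ hθ _).trans (mul_le_mul_of_nonneg_left
          (pow_le_pow_of_le_one he0.le he1.le ((Nat.le_div_iff_mul_le hk).2 (by
            rw [mul_comm]; omega))) (by positivity))) (abs_nonneg _) (by positivity)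
      · rw [Finset.card_range, nsmul_eq_mul]
        refine le_trans (le_of_eq ?_) hi.le
        simp only [S]; push_cast; ring
    linarith

/-- An integer polynomial of norm at most one half on the unit circle outside an arc. -/
theorem exists_gap_filter {θ₀ θ₁ : ℝ} (h0 : 0 ≤ θ₀) (h : θ₀ < θ₁) (h1 : θ₁ ≤ π) :
    ∃ B : ℤ[X], B ≠ 0 ∧ ∀ θ ∈ Set.Icc 0 π \ Set.Ioo θ₀ θ₁,
      ‖Polynomial.aeval (Complex.exp (θ * Complex.I)) B‖ ≤ 1 / 2 := by
  obtain ⟨p, hp0, hp⟩ := exists_int_small h0 h h1
  set D := p.natDegree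
  let B : ℤ[X] := ∑ i ∈ Finset.range (D + 1), C (p.coeff i) * X ^ (D - i) * (X ^ 2 + 1) ^ i
  have hB : ∀ θ : ℝ, Polynomial.aeval (Complex.exp (θ * Complex.I)) B =
      Complex.exp (θ * Complex.I) ^ D *
        ((p.map (Int.castRingHom ℝ)).eval (2 * cos θ) : ℝ) := by
    intro θ
    set z := Complex.exp (θ * Complex.I)
    have hz : z ^ 2 + 1 = z * ((2 * cos θ : ℝ) : ℂ) := by
      simp only [z, Complex.ofReal_mul, Complex.ofReal_ofNat, Complex.ofReal_cos,
        Complex.two_cos, ← Complex.exp_nat_mul, mul_add, ← Complex.exp_add]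
      push_cast
      rw [← two_mul, show (θ : ℂ) * Complex.I + -θ * Complex.I = 0 by ring, Complex.exp_zero]
    rw [eval_eq_sum_range, Polynomial.natDegree_map_eq_of_injective (Int.cast_injective)]
    simp only [B, map_sum, map_mul, map_pow, map_add, map_one, Polynomial.aeval_C,
      Polynomial.aeval_X, hz, Complex.ofReal_sum, Finset.mul_sum, coeff_map]
    refine Finset.sum_congr rfl fun i hi => ?_
    rw [show D = (D - i) + i by have := Finset.mem_range.1 hi; omega, Nat.add_sub_cancel]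
    push_cast
    simp only [algebraMap_int_eq, eq_intCast, Complex.ofReal_intCast]
    ring
  refine ⟨B, fun hz => ?_, fun θ hθ => ?_⟩
  · have hroot : ∀ θ : ℝ, (p.map (Int.castRingHom ℝ)).eval (2 * cos θ) = 0 := fun θ => by
      have := hB θ
      rw [hz, map_zero] at this
      simpa [Complex.exp_ne_zero] using this.symm
    refine hp0 ((Polynomial.map_eq_zero_iff (f := Int.castRingHom ℝ) Int.cast_injective).1
      (Polynomial.eq_zero_of_infinite_isRoot _ ?_))
    refine (Set.Icc_infinite (show (-2 : ℝ) < 2 by norm_num)).mono fun x hx => ?_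
    have := hroot (arccos (x / 2))
    rwa [cos_arccos (by linarith [hx.1]) (by linarith [hx.2]),
      show 2 * (x / 2) = x by ring] at this
  · rw [hB, norm_mul, norm_pow, Complex.norm_exp_ofReal_mul_I, one_pow, one_mul, Complex.norm_real]
    exact hp θ hθ

end

end Vale.Agent.P110.Spread
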