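import Mathlib

/-!
# P110: the local structure of a nearly flat polynomial

Near a point of the circle, at the scale of the inverse length, a nearly flat polynomial is a
pure frequency. The frequency is the real part of its logarithmic derivative.
-/

namespace Vale.Agent.P110.Spread

open Complex Metric
open scoped ComplexConjugate

noncomputable section

/-- The growth of a polynomial bounded on the circle. -/
theorem eval_norm_le {p : Polynomial ℂ} {d : ℕ} (hd : p.natDegree ≤ d) {M : ℝ}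
    (h : ∀ w : ℂ, ‖w‖ = 1 → ‖p.eval w‖ ≤ M) (w : ℂ) : ‖p.eval w‖ ≤ M * max 1 ‖w‖ ^ d := by
  have inner : ∀ q : Polynomial ℂ, (∀ w : ℂ, ‖w‖ = 1 → ‖q.eval w‖ ≤ M) →
      ∀ w : ℂ, ‖w‖ ≤ 1 → ‖q.eval w‖ ≤ M := fun q hq w hw =>
    norm_le_of_forall_mem_frontier_norm_le (U := ball (0 : ℂ) 1) isBounded_ball
      q.differentiable.diffContOnCl
      (fun z hz => hq z (by rw [frontier_ball _ one_ne_zero] at hz; simpa using hz))
      (by rw [closure_ball _ one_ne_zero]; simpa using hw)
  rcases le_or_gt ‖w‖ 1 with hw | hw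
  · rw [max_eq_left hw, one_pow, mul_one]; exact inner p h w hw
  · have key : ∀ u : ℂ, u ≠ 0 → (p.reflect d).eval u * (u⁻¹) ^ d = p.eval u⁻¹ := fun u hu => by
      let _ := invertibleOfNonzero (inv_ne_zero hu)
      have e := Polynomial.eval₂_reflect_mul_pow (RingHom.id ℂ) u⁻¹ d p hd
      rwa [invOf_eq_inv, inv_inv] at e
    have hne : w ≠ 0 := by rintro rfl; simp at hw; linarith
    have e := key w⁻¹ (inv_ne_zero hne)
    rw [inv_inv] at e
    rw [max_eq_right hw.le, ← e, norm_mul, norm_pow]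
    refine mul_le_mul_of_nonneg_right (inner _ (fun u hu => ?_) _ ?_) (by positivity)
    · have e' := congrArg norm (key u (by rintro rfl; simp at hu))
      rw [norm_mul, norm_pow, norm_inv, hu, inv_one, one_pow, mul_one] at e'
      rw [e']; exact h _ (by rw [norm_inv, hu, inv_one])
    · rw [norm_inv]; exact inv_le_one_of_one_le₀ hw.le

/-- An exponential sum with frequencies `k / N`, `k < N`. -/
def expSum (N : ℕ) (a : ℕ → ℂ) (s : ℂ) : ℂ :=
  ∑ k ∈ Finset.range N, a k * exp (((k : ℝ) / N : ℝ) * I * s)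

/-- The frequency of `a`. -/
def freq (N : ℕ) (a : ℕ → ℂ) : ℝ :=
  ((∑ k ∈ Finset.range N, (k : ℂ) * a k) / ∑ k ∈ Finset.range N, a k).re / N

theorem expSum_zero (N : ℕ) (a : ℕ → ℂ) : expSum N a 0 = ∑ k ∈ Finset.range N, a k := by
  simp [expSum]

/-- Almost constant modulus on the real line gives growth and separation from zero off it. -/
theorem expSum_bounds {N : ℕ} (hN : 0 < N) {a : ℕ → ℂ} {η : ℝ} (hη : 0 ≤ η) (hη4 : η ≤ 1 / 4)
    (h : ∀ w : ℂ, ‖w‖ = 1 → |‖∑ k ∈ Finset.range N, a k * w ^ k‖ - √N| ≤ η * √N) (s : ℂ) :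
    ‖expSum N a s‖ ≤ 2 * √N * Real.exp |s.im| ∧
      (8 * η * Real.exp |s.im| < 1 → expSum N a s ≠ 0) := by
  set p : Polynomial ℂ := ∑ k ∈ Finset.range N, Polynomial.C (a k) * Polynomial.X ^ k
  set pr : Polynomial ℂ :=
    ∑ k ∈ Finset.range N, Polynomial.C (conj (a k)) * Polynomial.X ^ (N - 1 - k)
  have hp : ∀ w, p.eval w = ∑ k ∈ Finset.range N, a k * w ^ k := fun w => by
    simp [p, Polynomial.eval_finsetSum]
  have hpd : p.natDegree ≤ N - 1 := Polynomial.natDegree_sum_le_of_forall_le _ _ fun k hk =>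
    (Polynomial.natDegree_C_mul_X_pow_le _ _).trans
      (by have := Finset.mem_range.1 hk; omega)
  have hprd : pr.natDegree ≤ N - 1 := Polynomial.natDegree_sum_le_of_forall_le _ _ fun k _ =>
    (Polynomial.natDegree_C_mul_X_pow_le _ _).trans (Nat.sub_le _ _)
  have hpr : ∀ w : ℂ, w ≠ 0 → pr.eval w = w ^ (N - 1) * conj (p.eval (conj w)⁻¹) := by
    intro w hw
    simp only [hp, pr, Polynomial.eval_finsetSum, Polynomial.eval_mul, Polynomial.eval_C,
      Polynomial.eval_pow, Polynomial.eval_X, map_sum, map_mul, map_pow, map_inv₀, conj_conj,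
      Finset.mul_sum]
    refine Finset.sum_congr rfl fun k hk => ?_
    have := Finset.mem_range.1 hk
    rw [pow_sub₀ w hw (show k ≤ N - 1 by omega), inv_pow]
    ring
  set w := exp ((1 / N : ℝ) * I * s) with hw
  have hsum : ∀ t : ℂ, expSum N a t = p.eval (exp ((1 / N : ℝ) * I * t)) := fun t => by
    rw [hp, expSum]
    refine Finset.sum_congr rfl fun k _ => ?_
    rw [← Complex.exp_nat_mul]
    push_cast; ring_nf
  have hwn : ‖w‖ = Real.exp (-s.im / N) := by
    rw [hw, Complex.norm_exp]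
    simp; ring
  have hsN : 0 ≤ √(N : ℝ) := Real.sqrt_nonneg _
  have hN1 : (1 : ℝ) ≤ N := by exact_mod_cast hN
  have hgrow : max 1 ‖w‖ ^ (N - 1) ≤ Real.exp |s.im| := by
    have : max 1 ‖w‖ ≤ Real.exp (|s.im| / N) := max_le (Real.one_le_exp (by positivity))
      (by rw [hwn]; exact Real.exp_le_exp.2 (div_le_div_of_nonneg_right (neg_le_abs _) (by positivity)))
    refine (pow_le_pow_left₀ (by positivity) this _).trans ?_
    rw [← Real.exp_nat_mul]
    refine Real.exp_le_exp.2 ?_
    rw [mul_div_assoc', div_le_iff₀ (by positivity), mul_comm |s.im|]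
    exact mul_le_mul_of_nonneg_right (by exact_mod_cast Nat.sub_le N 1) (abs_nonneg _)
  refine ⟨?_, fun hlt h0 => ?_⟩
  · rw [hsum]
    refine (eval_norm_le hpd (M := 2 * √N) (fun u hu => ?_) _).trans
      (mul_le_mul_of_nonneg_left hgrow (by positivity))
    rw [hp]; nlinarith [abs_le.1 (h u hu)]
  set P₀ := ‖∑ k ∈ Finset.range N, a k‖ with hP₀
  have h1 : |P₀ - √N| ≤ η * √N := by simpa using h 1 norm_one
  have hbound : ∀ u : ℂ, ‖u‖ = 1 →
      ‖(p * pr - Polynomial.C ((P₀ : ℂ) ^ 2) * Polynomial.X ^ (N - 1)).eval u‖ ≤ 4 * η * N := by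
    intro u hu
    have hu0 : u ≠ 0 := by rintro rfl; simp at hu
    have hcu : (conj u)⁻¹ = u := by
      rw [inv_eq_of_mul_eq_one_right]
      rw [mul_comm, Complex.mul_conj', hu]; simp
    rw [Polynomial.eval_sub, Polynomial.eval_mul, Polynomial.eval_mul, Polynomial.eval_C,
      Polynomial.eval_pow, Polynomial.eval_X, hpr u hu0, hcu, mul_left_comm, Complex.mul_conj',
      mul_comm ((P₀ : ℂ) ^ 2), ← mul_sub, norm_mul, norm_pow, hu, one_pow, one_mul,
      ← Complex.ofReal_pow, ← Complex.ofReal_pow, ← Complex.ofReal_sub, Complex.norm_real,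
      Real.norm_eq_abs, sq_sub_sq, abs_mul]
    have h2 : |‖p.eval u‖ - √N| ≤ η * √N := by rw [hp]; exact h u hu
    have a1 := abs_le.1 h1
    have a2 := abs_le.1 h2
    have hP : 0 ≤ P₀ := norm_nonneg _
    have hlow : 0 ≤ (1 - η) * √N := mul_nonneg (by linarith) hsN
    have hsq := Real.mul_self_sqrt (Nat.cast_nonneg (α := ℝ) N)
    have b1 := mul_self_le_mul_self (norm_nonneg (p.eval u))
      (show ‖p.eval u‖ ≤ (1 + η) * √N by linarith)
    have b2 := mul_self_le_mul_self hlow (show (1 - η) * √N ≤ ‖p.eval u‖ by linarith)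
    have b3 := mul_self_le_mul_self hP (show P₀ ≤ (1 + η) * √N by linarith)
    have b4 := mul_self_le_mul_self hlow (show (1 - η) * √N ≤ P₀ by linarith)
    rw [mul_mul_mul_comm, hsq] at b1 b2 b3 b4
    rw [← abs_mul, abs_le]
    constructor <;> linarith
  have hd : (p * pr - Polynomial.C ((P₀ : ℂ) ^ 2) * Polynomial.X ^ (N - 1)).natDegree ≤
      (N - 1) + (N - 1) := (Polynomial.natDegree_sub_le _ _).trans (max_le
        (Polynomial.natDegree_mul_le.trans (Nat.add_le_add hpd hprd))
        ((Polynomial.natDegree_C_mul_X_pow_le _ _).trans (Nat.le_add_left _ _)))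
  have e := eval_norm_le hd hbound w
  rw [hsum] at h0
  rw [Polynomial.eval_sub, Polynomial.eval_mul, h0, zero_mul, zero_sub, norm_neg,
    Polynomial.eval_mul, Polynomial.eval_C, Polynomial.eval_pow, Polynomial.eval_X, norm_mul,
    norm_pow, norm_pow, Complex.norm_real, Real.norm_eq_abs, sq_abs] at e
  have hrat : max 1 ‖w‖ ^ ((N - 1) + (N - 1)) ≤ Real.exp |s.im| * ‖w‖ ^ (N - 1) := by
    rw [pow_add, ← mul_pow]
    have hb : max 1 ‖w‖ * max 1 ‖w‖ ≤ Real.exp (|s.im| / N) * ‖w‖ := by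
      rw [hwn, ← Real.exp_add]
      rcases le_or_gt 0 s.im with hy | hy
      · rw [max_eq_left (Real.exp_le_one_iff.2 (div_nonpos_of_nonpos_of_nonneg
          (by linarith) (by positivity))), mul_one]
        refine Real.one_le_exp ?_
        rw [abs_of_nonneg hy, neg_div]; simp
      · rw [max_eq_right (Real.one_le_exp (div_nonneg (by linarith) (by positivity))),
          ← Real.exp_add, abs_of_neg hy]
    refine (pow_le_pow_left₀ (by positivity) hb _).trans ?_
    rw [mul_pow, ← Real.exp_nat_mul]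
    refine mul_le_mul_of_nonneg_right (Real.exp_le_exp.2 ?_) (by positivity)
    rw [mul_div_assoc', div_le_iff₀ (by positivity), mul_comm |s.im|]
    exact mul_le_mul_of_nonneg_right (by exact_mod_cast Nat.sub_le N 1) (abs_nonneg _)
  have hw0 : 0 < ‖w‖ ^ (N - 1) := by rw [hwn]; positivity
  have e2 := e.trans (mul_le_mul_of_nonneg_left hrat (by positivity))
  rw [← mul_assoc] at e2
  have e3 := le_of_mul_le_mul_right e2 hw0
  have a1 := abs_le.1 h1
  have h4 : (N : ℝ) / 2 ≤ P₀ ^ 2 := by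
    nlinarith [mul_le_mul (show (3 / 4 : ℝ) * √N ≤ P₀ by nlinarith)
      (show (3 / 4 : ℝ) * √N ≤ P₀ by nlinarith) (by positivity) (norm_nonneg _),
      Real.mul_self_sqrt (Nat.cast_nonneg (α := ℝ) N)]
  nlinarith

/-- At a fixed multiple of the inverse length a nearly flat polynomial is a pure frequency. -/
theorem phase {N : ℕ} (hN : 0 < N) {a : ℕ → ℂ} {η : ℝ} (hη : 0 ≤ η) (hη4 : η ≤ 1 / 4)
    (h : ∀ w : ℂ, ‖w‖ = 1 → |‖∑ k ∈ Finset.range N, a k * w ^ k‖ - √N| ≤ η * √N)
    {R : ℝ} (hR : 4 ≤ R) (hηR : 8 * η * Real.exp R < 1) :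
    |freq N a| ≤ 6 ∧ ∀ s : ℝ, |s| < R / 2 → 24 * s ^ 2 / R + (4 * η + 24 / R) * |s| ≤ 1 →
      ‖expSum N a s - exp ((freq N a * s : ℝ) * I) * ∑ k ∈ Finset.range N, a k‖ ≤
        4 * (24 * s ^ 2 / R + (4 * η + 24 / R) * |s|) * √N := by
  set S₁ : ℂ → ℂ := fun s =>
    ∑ k ∈ Finset.range N, a k * (exp (((k : ℝ) / N : ℝ) * I * s) * (((k : ℝ) / N : ℝ) * I))
  have hd : ∀ s, HasDerivAt (expSum N a) (S₁ s) s := fun s => by
    refine HasDerivAt.fun_sum fun k _ => ?_
    have := (((hasDerivAt_id s).const_mul ((((k : ℝ) / N : ℝ) : ℂ) * I)).cexp).const_mul (a k)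
    simpa using this
  have hne : ∀ s ∈ ball (0 : ℂ) R, expSum N a s ≠ 0 := fun s hs => by
    refine (expSum_bounds hN hη hη4 h s).2 (lt_of_le_of_lt ?_ hηR)
    exact mul_le_mul_of_nonneg_left (Real.exp_le_exp.2
      ((abs_im_le_norm s).trans (by simpa using (mem_ball_zero_iff.1 hs).le))) (by positivity)
  have h0R : (0 : ℂ) ∈ ball (0 : ℂ) R := mem_ball_self (by linarith)
  have hcd : Differentiable ℂ S₁ := by fun_prop
  obtain ⟨g, hg0, hg⟩ := ((hcd.differentiableOn.div
    (fun s _ => (hd s).differentiableAt.differentiableWithinAt) hne).isExactOn_ball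
      (c := (0 : ℂ)) (r := R)).with_val_at 0 0
  -- the exponential of the primitive is the normalised sum
  have hexp : ∀ z ∈ ball (0 : ℂ) R, expSum N a z = exp (g z) * expSum N a 0 := by
    intro z hz
    have hc : ∀ u ∈ ball (0 : ℂ) R, HasDerivWithinAt (fun u => expSum N a u * exp (-g u))
        0 (ball (0 : ℂ) R) u := fun u hu => by
      refine (((hd u).mul ((hg u hu).neg).cexp).congr_deriv ?_).hasDerivWithinAt
      simp only [Pi.div_apply, Pi.neg_apply]
      field_simp [hne u hu]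
      ring
    have := (convex_ball (0 : ℂ) R).norm_image_sub_le_of_norm_hasDerivWithin_le (C := 0) hc
      (fun u _ => by simp) h0R hz
    rw [zero_mul, norm_le_zero_iff, sub_eq_zero, hg0, neg_zero, Complex.exp_zero, mul_one] at this
    rw [← this, ← mul_assoc, mul_comm (exp (g z)), mul_assoc, ← Complex.exp_add]
    simp
  have hone : |‖expSum N a 0‖ - √N| ≤ η * √N := by simpa [expSum_zero] using h 1 norm_one
  have hsN : 0 < √(N : ℝ) := Real.sqrt_pos.2 (by exact_mod_cast hN)
  have hs0 : 3 / 4 * √(N : ℝ) ≤ ‖expSum N a 0‖ := by nlinarith [abs_le.1 hone]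
  have hre : Set.MapsTo g (ball (0 : ℂ) R) {z | z.re ≤ R + 2} := fun z hz => by
    have e := congrArg norm (hexp z hz)
    rw [norm_mul, Complex.norm_exp] at e
    have hb := (expSum_bounds hN hη hη4 h z).1
    rw [e] at hb
    have hy : Real.exp |z.im| ≤ Real.exp R := Real.exp_le_exp.2
      ((abs_im_le_norm z).trans (by simpa using (mem_ball_zero_iff.1 hz).le))
    have h3 : Real.exp (g z).re * (3 / 4 * √N) ≤ 2 * √N * Real.exp R :=
      (mul_le_mul_of_nonneg_left hs0 (Real.exp_pos _).le).trans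
        (hb.trans (mul_le_mul_of_nonneg_left hy (by positivity)))
    have h4 : (3 : ℝ) ≤ Real.exp 2 := by linarith [Real.add_one_le_exp (2 : ℝ)]
    have h5 : Real.exp (g z).re ≤ Real.exp (R + 2) := by
      rw [Real.exp_add]
      nlinarith [mul_le_mul_of_nonneg_left h4 (Real.exp_pos R).le, Real.exp_pos R]
    exact Real.exp_le_exp.1 h5
  have hgd : DifferentiableOn ℂ g (ball 0 R) :=
    fun z hz => (hg z hz).differentiableAt.differentiableWithinAt
  have hsub : ball (0 : ℂ) (R / 2) ⊆ ball 0 R := ball_subset_ball (by linarith)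
  have hmap : Set.MapsTo g (ball (0 : ℂ) (R / 2)) (closedBall (g 0) (3 * R)) := fun z hz => by
    rw [hg0, mem_closedBall_zero_iff]
    have hz' : ‖z‖ < R / 2 := mem_ball_zero_iff.1 hz
    refine (borelCaratheodory_zero (by linarith) hgd hre (by linarith) (hsub hz) hg0).trans ?_
    rw [div_le_iff₀ (by linarith)]
    nlinarith [mul_le_mul_of_nonneg_left hz'.le (show (0 : ℝ) ≤ 2 * (R + 2) by linarith)]
  set D := dslope g 0
  have hD : ∀ z ∈ ball (0 : ℂ) (R / 2), ‖D z‖ ≤ 6 := fun z hz =>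
    (norm_dslope_le_div_of_mapsTo_ball (hgd.mono hsub) hmap hz).trans
      (by rw [div_le_iff₀ (by linarith)]; linarith)
  have hDd : DifferentiableOn ℂ D (ball 0 (R / 2)) :=
    (differentiableOn_dslope (ball_mem_nhds _ (by linarith))).2 (hgd.mono hsub)
  have hmap2 : Set.MapsTo D (ball (0 : ℂ) (R / 2)) (closedBall (D 0) 12) := fun z hz => by
    rw [mem_closedBall, dist_eq_norm]
    linarith [norm_sub_le (D z) (D 0), hD z hz, hD 0 (mem_ball_self (by linarith))]
  have hD0 : D 0 = S₁ 0 / expSum N a 0 := by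
    simp only [D, dslope_same]; exact (hg 0 h0R).deriv
  set Z := (∑ k ∈ Finset.range N, (k : ℂ) * a k) / expSum N a 0 / N with hZ
  have hD0' : D 0 = I * Z := by
    have : S₁ 0 = I * ((∑ k ∈ Finset.range N, (k : ℂ) * a k) / N) := by
      simp only [S₁, mul_zero, Complex.exp_zero, one_mul, Finset.sum_div, Finset.mul_sum]
      refine Finset.sum_congr rfl fun k _ => ?_
      push_cast; ring
    rw [hD0, this, hZ]; ring
  have hfreq : freq N a = Z.re := by rw [hZ, freq, expSum_zero, div_natCast_re]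
  refine ⟨?_, fun s hs hE => ?_⟩
  · rw [hfreq]
    refine (abs_re_le_norm Z).trans ?_
    simpa [hD0'] using hD 0 (mem_ball_self (by linarith))
  have quad : ∀ u : ℝ, |u| < R / 2 → ‖g u - u * D 0‖ ≤ 24 * u ^ 2 / R := fun u hu => by
    have hu' : (u : ℂ) ∈ ball (0 : ℂ) (R / 2) := by simpa using hu
    have e1 : g u = (u : ℂ) * D u := by
      have := sub_smul_dslope g (0 : ℂ) (u : ℂ)
      rw [hg0, sub_zero, sub_zero, smul_eq_mul] at this
      exact this.symm
    have e2 : D u - D 0 = (u : ℂ) * dslope D 0 u := by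
      have := sub_smul_dslope D (0 : ℂ) (u : ℂ)
      rw [sub_zero, smul_eq_mul] at this
      exact this.symm
    have e3 := norm_dslope_le_div_of_mapsTo_ball hDd hmap2 hu'
    rw [e1, ← mul_sub, e2, ← mul_assoc, norm_mul, norm_mul, Complex.norm_real, Real.norm_eq_abs,
      abs_mul_abs_self, ← sq]
    refine (mul_le_mul_of_nonneg_left e3 (sq_nonneg u)).trans (le_of_eq ?_)
    field_simp; ring
  have hre1 : |(g (1 : ℝ)).re| ≤ 4 * η := by
    have hm : ((1 : ℝ) : ℂ) ∈ ball (0 : ℂ) R := by simp; linarith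
    have e := congrArg norm (hexp _ hm)
    rw [norm_mul, Complex.norm_exp] at e
    have h1 : |‖expSum N a (1 : ℝ)‖ - √N| ≤ η * √N := by
      have := h (exp ((1 / N : ℝ) * I)) (Complex.norm_exp_ofReal_mul_I _)
      convert this using 4
      refine Finset.sum_congr rfl fun k _ => ?_
      rw [← Complex.exp_nat_mul]; push_cast; ring_nf
    rw [e] at h1
    have a1 := abs_le.1 h1
    have a2 := abs_le.1 hone
    set X := Real.exp (g (1 : ℝ)).re
    set Y := ‖expSum N a 0‖
    have hX : 0 < X := Real.exp_pos _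
    have hX1 : X ≤ 1 + 4 * η := by
      nlinarith [mul_le_mul_of_nonneg_left (show (1 - η) * √N ≤ Y by linarith) hX.le,
        mul_le_mul_of_nonneg_left hη4 (show 0 ≤ η * √N by positivity)]
    have hX2 : 1 ≤ X * (1 + 4 * η) := by
      nlinarith [mul_le_mul_of_nonneg_left (show Y ≤ (1 + η) * √N by linarith) hX.le,
        mul_le_mul_of_nonneg_left hη4 (show 0 ≤ η * √N by positivity)]
    rw [← Real.log_exp (g (1 : ℝ)).re]
    change |Real.log X| ≤ _
    rw [abs_le]
    constructor
    · have := Real.log_le_sub_one_of_pos (inv_pos.2 hX)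
      rw [Real.log_inv] at this
      have : X⁻¹ ≤ 1 + 4 * η := by rw [inv_le_iff_one_le_mul₀ hX]; linarith
      linarith
    · linarith [Real.log_le_sub_one_of_pos hX]
  have him : |Z.im| ≤ 4 * η + 24 / R := by
    have q := (abs_re_le_norm _).trans (quad 1 (by rw [abs_one]; linarith))
    rw [sub_re, re_ofReal_mul, one_mul, hD0', I_mul_re, one_pow, mul_one] at q
    rw [abs_le] at hre1 q ⊢
    constructor <;> linarith
  set x := g s - ((Z.re * s : ℝ) : ℂ) * I
  have hx : ‖x‖ ≤ 24 * s ^ 2 / R + (4 * η + 24 / R) * |s| := by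
    have hsp : x = (g s - s * D 0) + ((-(Z.im * s) : ℝ) : ℂ) := by
      simp only [x, hD0']
      apply Complex.ext <;> simp [mul_comm]
    rw [hsp]
    refine (norm_add_le _ _).trans (add_le_add (quad s hs) ?_)
    rw [Complex.norm_real, Real.norm_eq_abs, abs_neg, abs_mul]
    exact mul_le_mul_of_nonneg_right him (abs_nonneg s)
  have hs' : (s : ℂ) ∈ ball (0 : ℂ) R := hsub (by simpa using hs)
  rw [hfreq, hexp _ hs', ← expSum_zero, ← sub_mul,
    show exp (g s) = exp ((Z.re * s : ℝ) * I) * exp x by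
      rw [← Complex.exp_add]; simp [x],
    ← mul_sub_one, norm_mul, norm_mul, Complex.norm_exp_ofReal_mul_I, one_mul]
  refine (mul_le_mul ((norm_exp_sub_one_le (hx.trans hE)).trans (mul_le_mul_of_nonneg_left hx
    zero_le_two)) (show ‖expSum N a 0‖ ≤ 2 * √N by nlinarith [abs_le.1 hone]) (norm_nonneg _)
      (by linarith [norm_nonneg x])).trans (le_of_eq (by ring))

end

end Vale.Agent.P110.Spread
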