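import Vale.Agent.P110.Spread.Core
import Vale.Agent.P110.Spread.Phase

/-!
# P110: windows carry energy on every arc; the frequencies of ultraflat signs are spread out
-/

namespace Vale.Agent.P110.Spread

open MeasureTheory Filter Topology

noncomputable section

/-- A weight whose sampled sums are its value at the frequency. -/
def Good (g : ℝ → ℂ) : Prop :=
  ∀ δ : ℝ, 0 < δ → ∃ η : ℝ, 0 < η ∧ ∀ (N : ℕ) (a : ℕ → ℂ), 0 < N →
    (∀ w : ℂ, ‖w‖ = 1 → |‖∑ k ∈ Finset.range N, a k * w ^ k‖ - √N| ≤ η * √N) →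
    ‖(∑ k ∈ Finset.range N, g (k / N) * a k) - g (freq N a) * ∑ k ∈ Finset.range N, a k‖ ≤ δ * √N

/-- The character of frequency `s`. -/
def chr (s : ℝ) (x : ℝ) : ℂ := Complex.exp ((x * s : ℝ) * Complex.I)

theorem good_chr (s : ℝ) : Good (chr s) := by
  intro δ hδ
  set e := min 1 (δ / 4) / 3 with he
  have he0 : 0 < e := by positivity
  set R := max 4 (max (2 * |s| + 1) (max (24 * s ^ 2 / e) (24 * |s| / e))) with hR
  have hR4 : 4 ≤ R := le_max_left _ _
  have hR0 : 0 < R := by linarith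
  have hRs : |s| < R / 2 := by
    have := (le_max_left _ _).trans (le_max_right _ _ : _ ≤ R)
    linarith
  set η := min (min (1 / 4) (e / (4 * (|s| + 1)))) (1 / (16 * Real.exp R)) with hη
  have hη0 : 0 < η := by positivity
  refine ⟨η, hη0, fun N a hN h => ?_⟩
  have hηR : 8 * η * Real.exp R < 1 := by
    have := min_le_right (min (1 / 4) (e / (4 * (|s| + 1)))) (1 / (16 * Real.exp R))
    rw [← hη, le_div_iff₀ (by positivity)] at this
    linarith
  obtain ⟨-, hph⟩ := phase hN hη0.le ((min_le_left _ _).trans (min_le_left _ _)) h hR4 hηR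
  have h1 : 24 * s ^ 2 / R ≤ e := by
    have h' : 24 * s ^ 2 / e ≤ R :=
      (le_max_left _ _).trans ((le_max_right _ _).trans (le_max_right _ _))
    rw [div_le_iff₀ he0] at h'; rw [div_le_iff₀ hR0]; linarith
  have h2 : 24 / R * |s| ≤ e := by
    have h' : 24 * |s| / e ≤ R :=
      (le_max_right _ _).trans ((le_max_right _ _).trans (le_max_right _ _))
    rw [div_le_iff₀ he0] at h'; rw [div_mul_eq_mul_div, div_le_iff₀ hR0]; linarith
  have h3 : 4 * η * |s| ≤ e := by
    have h' : η ≤ e / (4 * (|s| + 1)) := (min_le_left _ _).trans (min_le_right _ _)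
    rw [le_div_iff₀ (by positivity)] at h'
    linarith
  have hm := min_le_left 1 (δ / 4)
  have hm' := min_le_right 1 (δ / 4)
  refine le_trans (le_of_eq ?_) ((hph s hRs (by rw [add_mul]; linarith)).trans
    (mul_le_mul_of_nonneg_right ?_ (Real.sqrt_nonneg _)))
  · congr 1
    simp only [chr, expSum]
    refine congrArg₂ (· - ·) (Finset.sum_congr rfl fun k _ => ?_) rfl
    rw [mul_comm]
    congr 1
    push_cast
    ring_nf
  · rw [add_mul]; linarith

theorem good_add {g h : ℝ → ℂ} (hg : Good g) (hh : Good h) : Good (g + h) := by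
  intro δ hδ
  obtain ⟨η₁, h1, e1⟩ := hg (δ / 2) (by positivity)
  obtain ⟨η₂, h2, e2⟩ := hh (δ / 2) (by positivity)
  refine ⟨min η₁ η₂, by positivity, fun N a hN ha => ?_⟩
  have a1 := e1 N a hN fun w hw => (ha w hw).trans
    (mul_le_mul_of_nonneg_right (min_le_left _ _) (Real.sqrt_nonneg _))
  have a2 := e2 N a hN fun w hw => (ha w hw).trans
    (mul_le_mul_of_nonneg_right (min_le_right _ _) (Real.sqrt_nonneg _))
  simp only [Pi.add_apply, add_mul, Finset.sum_add_distrib]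
  rw [add_sub_add_comm]
  linarith [norm_add_le ((∑ k ∈ Finset.range N, g (k / N) * a k) -
    g (freq N a) * ∑ k ∈ Finset.range N, a k) ((∑ k ∈ Finset.range N, h (k / N) * a k) -
    h (freq N a) * ∑ k ∈ Finset.range N, a k)]

theorem good_smul {g : ℝ → ℂ} (hg : Good g) (c : ℂ) : Good (fun x => c * g x) := by
  intro δ hδ
  obtain ⟨η, hη, e⟩ := hg (δ / (‖c‖ + 1)) (by positivity)
  refine ⟨η, hη, fun N a hN ha => ?_⟩
  simp only [mul_assoc, ← Finset.mul_sum, ← mul_sub, norm_mul]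
  refine (mul_le_mul_of_nonneg_left (e N a hN ha) (norm_nonneg c)).trans ?_
  rw [← mul_assoc]
  refine mul_le_mul_of_nonneg_right ?_ (Real.sqrt_nonneg _)
  rw [mul_div_assoc', div_le_iff₀ (by positivity)]
  linarith

/-- Multipliers of good weights by all characters. -/
def Mult (h : ℝ → ℂ) : Prop :=
  ∀ g : ℝ → ℂ, (∀ s, Good fun x => chr s x * g x) → ∀ s, Good fun x => chr s x * (h x * g x)

theorem Mult.good {h : ℝ → ℂ} (hh : Mult h) : Good h := by
  simpa [chr] using hh (fun _ => 1) (fun s => by simpa using good_chr s) 0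

theorem mult_chr (t : ℝ) : Mult (chr t) := fun g hg s => by
  have : (fun x => chr s x * (chr t x * g x)) = fun x => chr (s + t) x * g x := by
    funext x
    simp only [chr]
    rw [← mul_assoc, ← Complex.exp_add]
    push_cast; ring_nf
  rw [this]; exact hg _

theorem mult_const (c : ℂ) : Mult (fun _ => c) := fun g hg s => by
  simpa [mul_left_comm] using good_smul (hg s) c

theorem Mult.add {h h' : ℝ → ℂ} (hh : Mult h) (hh' : Mult h') : Mult (fun x => h x + h' x) :=
  fun g hg s => by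
  convert good_add (hh g hg s) (hh' g hg s) using 1
  funext x; simp only [Pi.add_apply]; ring

theorem Mult.mul {h h' : ℝ → ℂ} (hh : Mult h) (hh' : Mult h') : Mult (fun x => h x * h' x) :=
  fun g hg s => by simpa [mul_assoc] using hh _ (hh' g hg) s

theorem Mult.pow {h : ℝ → ℂ} (hh : Mult h) : ∀ n : ℕ, Mult (fun x => h x ^ n)
  | 0 => by simpa using mult_const 1
  | n + 1 => by simpa [pow_succ] using (Mult.pow hh n).mul hh

theorem mult_cos (θ m : ℝ) : Mult (fun x => (Real.cos (θ * (x - m)) : ℂ)) := by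
  have : (fun x => (Real.cos (θ * (x - m)) : ℂ)) = fun x =>
      Complex.exp ((-(θ * m) : ℝ) * Complex.I) / 2 * chr θ x +
        Complex.exp ((θ * m : ℝ) * Complex.I) / 2 * chr (-θ) x := by
    funext x
    simp only [chr, Complex.ofReal_cos, Complex.cos, div_mul_eq_mul_div, ← Complex.exp_add,
      ← add_div]
    push_cast; ring_nf
  rw [this]
  exact ((mult_const _).mul (mult_chr θ)).add ((mult_const _).mul (mult_chr (-θ)))

/-- A bump for the middle half of a window, small outside the window. -/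
theorem exists_weight {a b τ : ℝ} (ha : 0 ≤ a) (hab : a < b) (hb : b ≤ 1) (hτ : 0 < τ) :
    ∃ (g : ℝ → ℝ) (L : ℝ), Good (fun x => (g x : ℂ)) ∧ (∀ x, |g x| ≤ 1) ∧
      (∀ x y, |g x - g y| ≤ L * |x - y|) ∧
      (∀ x, (3 * a + b) / 4 < x → x < (a + 3 * b) / 4 → 1 / 2 ≤ g x) ∧
      (∀ x, |x| ≤ 6 → x ∉ Set.Ioo a b → |g x| ≤ τ) := by
  set m := (a + b) / 2 with hm
  set c : ℝ := 1 / 5
  set ψ : ℝ → ℝ := fun x => Real.cos (c * (x - m)) ^ 2 with hψ
  have hmono : ∀ d d' : ℝ, 0 ≤ d → d ≤ d' → d' ≤ 7 → Real.cos (c * d') ^ 2 ≤ Real.cos (c * d) ^ 2 :=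
    fun d d' h0 h h7 => by
      have := Real.pi_gt_three
      exact pow_le_pow_left₀ (Real.cos_nonneg_of_mem_Icc ⟨by simp only [c]; linarith,
        by simp only [c]; linarith⟩) (Real.cos_le_cos_of_nonneg_of_le_pi (by simp only [c]; linarith)
          (by simp only [c]; linarith) (by simp only [c]; linarith)) 2
  have habs : ∀ x, ψ x = Real.cos (c * |x - m|) ^ 2 := fun x => by
    simp only [ψ]
    rw [← Real.cos_abs, abs_mul, abs_of_pos (show (0 : ℝ) < c by norm_num [c])]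
  set u₁ := Real.cos (c * ((b - a) / 4)) ^ 2
  set u₂ := Real.cos (c * ((b - a) / 2)) ^ 2
  have hπ := Real.pi_gt_three
  have hu₂ : u₂ < u₁ := by
    refine pow_lt_pow_left₀ ?_ (Real.cos_nonneg_of_mem_Icc
      ⟨by simp only [c]; linarith, by simp only [c]; linarith⟩) two_ne_zero
    exact Real.cos_lt_cos_of_nonneg_of_le_pi (by simp only [c]; linarith)
      (by simp only [c]; linarith) (by simp only [c]; linarith)
  have hu₂0 : 0 ≤ u₂ := sq_nonneg _
  have hu₁0 : 0 < u₁ := lt_of_le_of_lt hu₂0 hu₂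
  obtain ⟨n, hn⟩ := exists_pow_lt_of_lt_one (show 0 < τ / 2 by positivity)
    ((div_lt_one hu₁0).2 hu₂)
  set p := ⌈1 / u₁ ^ n⌉₊
  have hp1 : 1 / u₁ ^ n ≤ p := Nat.le_ceil _
  have hp2 : (p : ℝ) < 1 / u₁ ^ n + 1 := Nat.ceil_lt_add_one (by positivity)
  have hψ0 : ∀ x, 0 ≤ ψ x := fun x => sq_nonneg _
  have hψ1 : ∀ x, ψ x ≤ 1 := fun x => Real.cos_sq_le_one _
  set g : ℝ → ℝ := fun x => 1 - (1 - ψ x ^ n) ^ p with hg
  have hv : ∀ x, 0 ≤ 1 - ψ x ^ n ∧ 1 - ψ x ^ n ≤ 1 := fun x =>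
    ⟨sub_nonneg.2 (pow_le_one₀ (hψ0 x) (hψ1 x)), sub_le_self _ (pow_nonneg (hψ0 x) n)⟩
  have hg01 : ∀ x, 0 ≤ g x ∧ g x ≤ 1 := fun x =>
    ⟨sub_nonneg.2 (pow_le_one₀ (hv x).1 (hv x).2), sub_le_self _ (pow_nonneg (hv x).1 p)⟩
  refine ⟨g, p * (n * (2 * c)), ?_, fun x => abs_le.2 ⟨by linarith [(hg01 x).1], (hg01 x).2⟩,
    fun x y => ?_, fun x h1 h2 => ?_, fun x h6 hx => ?_⟩
  · have h : Mult (fun x => 1 + (-1 : ℂ) * (1 + (-1 : ℂ) * ((Real.cos (c * (x - m)) : ℂ) ^ 2) ^ n) ^ p) :=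
      (mult_const 1).add ((mult_const (-1)).mul (((mult_const 1).add
        ((mult_const (-1)).mul (((mult_cos c m).pow 2).pow n))).pow p))
    convert h.good using 2 with x
    simp only [g, ψ]; push_cast; ring
  · have e1 : |g x - g y| ≤ p * |ψ x ^ n - ψ y ^ n| := by
      have := abs_pow_sub_pow_le (1 - ψ x ^ n) (1 - ψ y ^ n) p
      simp only [g]
      rw [sub_sub_sub_cancel_left, abs_sub_comm] at this ⊢
      refine (by rw [abs_sub_comm] : _ = _).trans_le (this.trans ?_)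
      rw [mul_assoc]
      refine (mul_comm _ _).trans_le ?_
      rw [mul_assoc]
      refine mul_le_mul_of_nonneg_left ?_ (Nat.cast_nonneg p)
      rw [abs_of_nonneg (hv x).1, abs_of_nonneg (hv y).1, abs_sub_comm (ψ x ^ n)]
      exact mul_le_of_le_one_left (abs_nonneg _)
        (pow_le_one₀ (le_max_of_le_left (hv x).1) (max_le (hv x).2 (hv y).2))
    have e2 : |ψ x ^ n - ψ y ^ n| ≤ n * |ψ x - ψ y| := by
      refine (abs_pow_sub_pow_le (ψ x) (ψ y) n).trans ?_
      rw [abs_of_nonneg (hψ0 x), abs_of_nonneg (hψ0 y), mul_assoc,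
        mul_comm (|ψ x - ψ y|)]
      rw [mul_comm (n : ℝ) (|ψ x - ψ y|), mul_comm _ (|ψ x - ψ y|)]
      exact mul_le_mul_of_nonneg_left (mul_le_of_le_one_right (Nat.cast_nonneg n)
        (pow_le_one₀ (le_max_of_le_left (hψ0 x)) (max_le (hψ1 x) (hψ1 y)))) (abs_nonneg _)
    have e3 : |ψ x - ψ y| ≤ 2 * c * |x - y| := by
      simp only [ψ]
      rw [sq_sub_sq, abs_mul]
      refine (mul_le_mul (show |_| ≤ (2 : ℝ) from ?_) (show |_| ≤ c * |x - y| from ?_)
        (abs_nonneg _) zero_le_two).trans (le_of_eq (by ring))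
      · exact (abs_add_le _ _).trans (by
          linarith [Real.abs_cos_le_one (c * (x - m)), Real.abs_cos_le_one (c * (y - m))])
      · refine (Real.abs_cos_sub_cos_le _ _).trans (le_of_eq ?_)
        rw [← mul_sub, abs_mul, abs_of_pos (show (0 : ℝ) < c by norm_num [c]), sub_sub_sub_cancel_right]
    calc |g x - g y| ≤ p * (n * (2 * c * |x - y|)) :=
          e1.trans (mul_le_mul_of_nonneg_left (e2.trans (mul_le_mul_of_nonneg_left e3
            (Nat.cast_nonneg n))) (Nat.cast_nonneg p))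
      _ = _ := by ring
  · have hd : |x - m| ≤ (b - a) / 4 := abs_le.2 ⟨by rw [hm]; linarith, by rw [hm]; linarith⟩
    have hu : u₁ ≤ ψ x := by
      rw [habs]; exact hmono _ _ (abs_nonneg _) hd (by linarith)
    have hb' := one_add_mul_le_pow (a := (ψ x) ^ n) (by linarith [pow_nonneg (hψ0 x) n]) p
    have hpu : 1 ≤ (p : ℝ) * ψ x ^ n := by
      rw [div_le_iff₀ (by positivity)] at hp1
      exact hp1.trans (mul_le_mul_of_nonneg_left (pow_le_pow_left₀ hu₁0.le hu n) (Nat.cast_nonneg p))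
    have hprod : (1 - ψ x ^ n) ^ p * (1 + ψ x ^ n) ^ p ≤ 1 := by
      rw [← mul_pow]
      exact pow_le_one₀ (mul_nonneg (hv x).1 (by linarith [pow_nonneg (hψ0 x) n]))
        (by nlinarith [sq_nonneg (ψ x ^ n)])
    have := mul_le_mul_of_nonneg_left
      (show 2 ≤ (1 + ψ x ^ n) ^ p by linarith) (pow_nonneg (hv x).1 p)
    simp only [g]; linarith
  · have hd : (b - a) / 2 ≤ |x - m| := by
      simp only [Set.mem_Ioo, not_and_or, not_lt] at hx
      rw [le_abs, hm]
      rcases hx with h | h <;> [right; left] <;> linarith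
    have hd7 : |x - m| ≤ 7 := by
      rw [abs_le] at h6 ⊢
      constructor <;> rw [hm] <;> linarith
    have hu : ψ x ≤ u₂ := by
      rw [habs]; exact hmono _ _ (by linarith) hd hd7
    have hb' := one_add_mul_le_pow (a := -(ψ x) ^ n) (by linarith [pow_le_one₀ (n := n) (hψ0 x) (hψ1 x)]) p
    rw [← sub_eq_add_neg (1 : ℝ) (ψ x ^ n)] at hb'
    rw [abs_of_nonneg (hg01 x).1]
    have h1 : g x ≤ p * ψ x ^ n := by simp only [g]; linarith
    refine h1.trans ((mul_le_mul_of_nonneg_left (pow_le_pow_left₀ (hψ0 x) hu n)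
      (Nat.cast_nonneg p)).trans ((mul_le_mul_of_nonneg_right hp2.le (pow_nonneg hu₂0 n)).trans ?_))
    rw [div_pow] at hn
    have : u₂ ^ n ≤ u₂ ^ n / u₁ ^ n :=
      le_div_self (by positivity) (by positivity) (pow_le_one₀ hu₁0.le (Real.cos_sq_le_one _))
    rw [add_mul, one_mul, one_div_mul_eq_div]
    linarith

/-- A bounded Littlewood polynomial has energy on every arc from every window. -/
theorem window_energy (C x y a b : ℝ) (hxy : x < y) (ha : 0 ≤ a) (hab : a < b) (hb : b ≤ 1) :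
    ∃ c : ℝ, 0 < c ∧ ∃ N₀ : ℕ, ∀ N : ℕ, N₀ ≤ N → ∀ ε : ℕ → ℤ,
      (∀ k < N, ε k = 1 ∨ ε k = -1) →
      (∀ z : ℂ, ‖z‖ = 1 → ‖∑ k ∈ Finset.range N, (ε k : ℂ) * z ^ k‖ ≤ C * √N) →
      c * N ≤ ∫ t in x..y, ‖∑ k ∈ (Finset.range N).filter
        (fun k : ℕ => a * N ≤ (k : ℝ) ∧ (k : ℝ) < b * N),
          (ε k : ℂ) * Complex.exp (t * Complex.I) ^ k‖ ^ 2 := by
  obtain ⟨θ₀, θ₁, h0, h, h1, harc⟩ := exists_half_arc hxy
  obtain ⟨c, hc, hcore⟩ := core C a b θ₀ θ₁ ha hab hb h0 h h1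
  obtain ⟨N₀, hN₀⟩ := hcore 2
  refine ⟨c, hc, N₀, fun N hN ε hε hsup => ?_⟩
  set w : ℕ → ℝ := fun k => if a * N ≤ (k : ℝ) ∧ (k : ℝ) < b * N then 1 else 0 with hw
  have hev : ∀ t, ev (twist N w ε) t = ∑ k ∈ (Finset.range N).filter
      (fun k : ℕ => a * N ≤ (k : ℝ) ∧ (k : ℝ) < b * N),
        (ε k : ℂ) * Complex.exp (t * Complex.I) ^ k := fun t => by
    rw [ev_twist, Finset.sum_filter]
    refine Finset.sum_congr rfl fun k _ => ?_
    simp only [w]
    split_ifs
    · rw [← Complex.exp_nat_mul]; push_cast; ring_nf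
    · simp
  have hsup' : ∀ t, ‖ev (twist N (fun _ => 1) ε) t‖ ≤ C * √N := fun t => by
    refine le_of_eq_of_le (congrArg norm ?_) (hsup _ (Complex.norm_exp_ofReal_mul_I t))
    rw [ev_twist]
    refine Finset.sum_congr rfl fun k _ => ?_
    rw [← Complex.exp_nat_mul]; push_cast; ring_nf
  set st : ℝ → ℕ → ℝ := fun r k => if r ≤ (k : ℝ) then 1 else 0
  have hst : ∀ r k, st r k ≤ st r (k + 1) := fun r k => by
    simp only [st]; push_cast; split_ifs <;> linarith
  have hst01 : ∀ r k, 0 ≤ st r k ∧ st r k ≤ 1 := fun r k => by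
    simp only [st]; split_ifs <;> norm_num
  have hvar : ∑ k ∈ Finset.range N, (w (k + 1) - w k) ^ 2 ≤ 2 := by
    refine (Finset.sum_le_sum (g := fun k => (st (a * N) (k + 1) - st (a * N) k) +
      (st (b * N) (k + 1) - st (b * N) k)) fun k _ => ?_).trans ?_
    · have e : ∀ j, w j = st (a * N) j - st (b * N) j := fun j => by
        have : a * N ≤ b * N := mul_le_mul_of_nonneg_right hab.le (Nat.cast_nonneg N)
        simp only [w, st]
        by_cases h₁ : a * N ≤ (j : ℝ) <;> by_cases h₂ : b * N ≤ (j : ℝ)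
        · simp [h₁, h₂, not_lt.2 h₂]
        · simp [h₁, h₂, not_le.1 h₂]
        · exact absurd (this.trans h₂) h₁
        · simp [h₁, h₂]
      rw [e, e]
      have := hst (a * N) k; have := hst (b * N) k
      have := hst01 (a * N) k; have := hst01 (a * N) (k + 1)
      have := hst01 (b * N) k; have := hst01 (b * N) (k + 1)
      nlinarith
    · rw [Finset.sum_add_distrib, Finset.sum_range_sub, Finset.sum_range_sub]
      linarith [(hst01 (a * N) N).2, (hst01 (a * N) 0).1, (hst01 (b * N) N).2, (hst01 (b * N) 0).1]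
  have := hN₀ N hN ε w hε (fun k => by simp only [w]; split_ifs <;> simp) hvar
    (fun k _ h1 h2 => by simp only [w]; rw [if_pos ⟨h1.le, h2⟩]; norm_num) hsup'
  refine this.trans ((harc _).trans (le_of_eq ?_))
  simp only [hev]

/-- The frequencies of an ultraflat sequence visit every window on every arc. -/
theorem frequency_spread (len : ℕ → ℕ) (ε : ℕ → ℕ → ℤ) (hlen : Tendsto len atTop atTop)
    (hε : ∀ n, ∀ k < len n, ε n k = 1 ∨ ε n k = -1)
    (hflat : ∀ η : ℝ, 0 < η → ∀ᶠ n in atTop, ∀ z : ℂ, ‖z‖ = 1 →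
      |‖∑ k ∈ Finset.range (len n), (ε n k : ℂ) * z ^ k‖ / √(len n) - 1| ≤ η)
    {x y a b : ℝ} (hxy : x < y) (ha : 0 ≤ a) (hab : a < b) (hb : b ≤ 1) :
    ∃ c : ℝ, 0 < c ∧ ∀ᶠ n in atTop, ENNReal.ofReal c ≤ volume {t ∈ Set.Icc x y |
      ((∑ k ∈ Finset.range (len n), (k : ℂ) * (ε n k : ℂ) * Complex.exp (t * Complex.I) ^ k) /
        ∑ k ∈ Finset.range (len n), (ε n k : ℂ) * Complex.exp (t * Complex.I) ^ k).re / len n ∈
          Set.Ioo a b} := by
  obtain ⟨θ₀, θ₁, h0, h, h1, harc⟩ := exists_half_arc hxy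
  obtain ⟨c, hc, hcore⟩ := core 2 ((3 * a + b) / 4) ((a + 3 * b) / 4) θ₀ θ₁ (by linarith)
    (by linarith) (by linarith) h0 h h1
  set δ := min 1 (√(c / (2 * (y - x))) / 3) with hδ
  have hyx : 0 < y - x := sub_pos.2 hxy
  have hδ0 : 0 < δ := by positivity
  obtain ⟨g, L, hgood, hg1, hgL, hgin, hgout⟩ := exists_weight ha hab hb hδ0
  obtain ⟨η₁, hη₁, hgood'⟩ := hgood δ hδ0
  obtain ⟨N₀, hN₀⟩ := hcore (L ^ 2)
  set η := min η₁ (1 / (16 * Real.exp 4))
  have hη0 : 0 < η := by positivity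
  have hη16 : η ≤ 1 / (16 * Real.exp 4) := min_le_right _ _
  have hη4 : η ≤ 1 / 4 := hη16.trans
    (div_le_div_of_nonneg_left zero_le_one (by norm_num) (by linarith [Real.one_le_exp (show (0 : ℝ) ≤ 4 by norm_num)]))
  have hηR : 8 * η * Real.exp 4 < 1 := by
    rw [le_div_iff₀ (by positivity)] at hη16; linarith
  refine ⟨c / 18, by positivity, ?_⟩
  filter_upwards [hflat η hη0, hlen.eventually_ge_atTop (max N₀ 1)] with n hn hN
  set N := len n
  have hN1 : 0 < N := lt_of_lt_of_le one_pos ((le_max_right _ _).trans hN)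
  have hsN : 0 < √(N : ℝ) := Real.sqrt_pos.2 (by exact_mod_cast hN1)
  set e := ε n
  have hflat' : ∀ z : ℂ, ‖z‖ = 1 →
      |‖∑ k ∈ Finset.range N, (e k : ℂ) * z ^ k‖ - √N| ≤ η * √N := fun z hz => by
    have := mul_le_mul_of_nonneg_right (hn z hz) hsN.le
    rwa [show ‖∑ k ∈ Finset.range N, (e k : ℂ) * z ^ k‖ - √N =
      (‖∑ k ∈ Finset.range N, (e k : ℂ) * z ^ k‖ / √N - 1) * √N by field_simp,
      abs_mul, abs_of_pos hsN]
  set w : ℕ → ℝ := fun k => g (k / N)
  have hvar : ∑ k ∈ Finset.range N, (w (k + 1) - w k) ^ 2 ≤ L ^ 2 := by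
    refine (Finset.sum_le_card_nsmul _ _ ((L / N) ^ 2) fun k _ => ?_).trans ?_
    · rw [← sq_abs]
      refine pow_le_pow_left₀ (abs_nonneg _) ((hgL _ _).trans (le_of_eq ?_)) 2
      rw [← sub_div, Nat.cast_add, Nat.cast_one, add_sub_cancel_left,
        abs_of_nonneg (by positivity)]
      ring
    · rw [Finset.card_range, nsmul_eq_mul, div_pow, mul_div_assoc', div_le_iff₀ (by positivity)]
      nlinarith [show (N : ℝ) ≤ N ^ 2 by exact_mod_cast Nat.le_self_pow two_ne_zero N,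
        sq_nonneg L]
  have hsup' : ∀ t, ‖ev (twist N (fun _ => 1) e) t‖ ≤ 2 * √N := fun t => by
    have hb := abs_le.1 (hflat' _ (Complex.norm_exp_ofReal_mul_I t))
    refine le_of_eq_of_le (congrArg norm ?_) (by nlinarith :
      ‖∑ k ∈ Finset.range N, (e k : ℂ) * Complex.exp (t * Complex.I) ^ k‖ ≤ 2 * √N)
    rw [ev_twist]
    refine Finset.sum_congr rfl fun k _ => ?_
    rw [← Complex.exp_nat_mul]; push_cast; ring_nf
  have hlow := (hN₀ N ((le_max_left _ _).trans hN) e w (hε n) (fun k => hg1 _) hvar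
    (fun k _ h1 h2 => hgin _ ((lt_div_iff₀ (by exact_mod_cast hN1)).2 h1)
      ((div_lt_iff₀ (by exact_mod_cast hN1)).2 h2)) hsup').trans (harc _)
  set F : ℝ → ℝ := fun t => ‖ev (twist N w e) t‖ ^ 2
  set T := (3 * δ) ^ 2 * N
  have hFc : Continuous F := (continuous_ev _).norm.pow 2
  set A := Set.Icc x y ∩ {t | T < F t}
  have hAm : MeasurableSet A :=
    measurableSet_Icc.inter (measurableSet_lt measurable_const hFc.measurable)
  set K : ℝ → ℝ := fun t =>
    ((∑ k ∈ Finset.range N, (k : ℂ) * (e k : ℂ) * Complex.exp (t * Complex.I) ^ k) /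
      ∑ k ∈ Finset.range N, (e k : ℂ) * Complex.exp (t * Complex.I) ^ k).re / N
  have hpt : ∀ t, F t ≤ 9 * N ∧ (T < F t → K t ∈ Set.Ioo a b) := fun t => by
    set z := Complex.exp (t * Complex.I)
    set al : ℕ → ℂ := fun k => (e k : ℂ) * z ^ k
    have hal : ∀ w : ℂ, ‖w‖ = 1 → |‖∑ k ∈ Finset.range N, al k * w ^ k‖ - √N| ≤ η * √N :=
      fun w hw => by
        have := hflat' (z * w) (by rw [norm_mul, hw, mul_one]; exact Complex.norm_exp_ofReal_mul_I t)
        simpa only [al, mul_assoc, ← mul_pow] using this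
    have hfr : freq N al = K t := by simp only [freq, K, al, z, mul_assoc]
    have hP : ‖∑ k ∈ Finset.range N, al k‖ ≤ 2 * √N := by
      have := abs_le.1 (hal 1 norm_one)
      simp only [one_pow, mul_one] at this
      nlinarith
    have hev : ev (twist N w e) t = ∑ k ∈ Finset.range N, (g (k / N) : ℂ) * al k := by
      rw [ev_twist]
      refine Finset.sum_congr rfl fun k _ => ?_
      simp only [al, z, w, ← Complex.exp_nat_mul]; push_cast; ring_nf
    have hval : ‖ev (twist N w e) t‖ ≤ (|g (K t)| * 2 + δ) * √N := by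
      have := hgood' N al hN1 fun w hw => (hal w hw).trans
        (mul_le_mul_of_nonneg_right (min_le_left _ _) hsN.le)
      rw [← hev, hfr] at this
      refine (norm_le_norm_sub_add _ _).trans ((add_le_add this ?_).trans (le_of_eq
        (show δ * √N + |g (K t)| * (2 * √N) = _ by ring)))
      rw [norm_mul, Complex.norm_real, Real.norm_eq_abs]
      exact mul_le_mul_of_nonneg_left hP (abs_nonneg _)
    have hsq := Real.sq_sqrt (Nat.cast_nonneg (α := ℝ) N)
    have hm := min_le_left 1 (√(c / (2 * (y - x))) / 3)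
    refine ⟨?_, fun hT => ?_⟩
    · refine (pow_le_pow_left₀ (norm_nonneg _) (hval.trans (mul_le_mul_of_nonneg_right
        (show _ ≤ (3 : ℝ) by linarith [hg1 (K t)]) hsN.le)) 2).trans (le_of_eq ?_)
      rw [mul_pow, hsq]; norm_num
    · by_contra hno
      refine not_le.2 hT ((pow_le_pow_left₀ (norm_nonneg _) (hval.trans
        (mul_le_mul_of_nonneg_right (show _ ≤ 3 * δ from ?_) hsN.le)) 2).trans (le_of_eq ?_))
      · have := (phase hN1 hη0.le hη4 hal le_rfl hηR).1
        rw [hfr] at this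
        linarith [hgout _ this hno]
      · rw [mul_pow, hsq]
  refine le_trans ?_ (measure_mono (show A ⊆ {t ∈ Set.Icc x y | K t ∈ Set.Ioo a b} from
    fun t ht => ⟨ht.1, (hpt t).2 ht.2⟩))
  have hAfin : volume A ≠ ⊤ :=
    ((measure_mono Set.inter_subset_left).trans_lt isCompact_Icc.measure_lt_top).ne
  rw [ENNReal.ofReal_le_iff_le_toReal hAfin]
  have hic : ∀ r : ℝ, IntegrableOn (fun _ : ℝ => r) (Set.Icc x y) :=
    fun r => continuous_const.continuousOn.integrableOn_Icc
  have hup : ∫ t in x..y, F t ≤ T * (y - x) + 9 * N * (volume A).toReal := by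
    rw [intervalIntegral.integral_of_le hxy.le, ← integral_Icc_eq_integral_Ioc]
    refine (setIntegral_mono_on (g := fun t => T + A.indicator (fun _ => (9 * N : ℝ)) t)
      hFc.continuousOn.integrableOn_Icc ?_ measurableSet_Icc fun t ht => ?_).trans (le_of_eq ?_)
    · exact (hic T).add ((hic _).indicator hAm)
    · by_cases hA : t ∈ A
      · rw [Set.indicator_of_mem hA]
        linarith [(hpt t).1, show 0 ≤ T by positivity]
      · rw [Set.indicator_of_notMem hA, add_zero]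
        exact not_lt.1 fun h' => hA ⟨ht, h'⟩
    · rw [integral_add (hic T) ((hic _).indicator hAm),
        setIntegral_const, setIntegral_indicator hAm, setIntegral_const,
        Set.inter_eq_right.2 (Set.inter_subset_left : A ⊆ _), measureReal_def, measureReal_def,
        Real.volume_Icc, ENNReal.toReal_ofReal hyx.le, smul_eq_mul, smul_eq_mul]
      ring
  have hTc : T * (y - x) ≤ c / 2 * N := by
    have h' : (3 * δ) ^ 2 ≤ c / (2 * (y - x)) := by
      rw [← Real.sq_sqrt (show 0 ≤ c / (2 * (y - x)) by positivity)]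
      refine pow_le_pow_left₀ (by positivity) ?_ 2
      linarith [min_le_right 1 (√(c / (2 * (y - x))) / 3)]
    rw [le_div_iff₀ (by positivity)] at h'
    simp only [T]
    nlinarith [mul_le_mul_of_nonneg_right h' (Nat.cast_nonneg (α := ℝ) N)]
  have hNR : (1 : ℝ) ≤ N := by exact_mod_cast hN1
  nlinarith

end

end Vale.Agent.P110.Spread
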